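import Vale.Agent.P141.H297.StkX1

/-!
# P141, line (A): the stack energy at hub `x1` for path slots

`H297.Ch.stk_O` without the hypothesis `Tri`: the slot of the time `k + 1` may be changed in an
arbitrary way into the slot of the time `k`.  Affected row cells: the cells `m` of scale `k` of the
rows `y` on which the two slots differ; a step costs the mass at the time `k + 1` of the affected
row cells.
-/

namespace Vale.Agent.P141.H38.Q

open Finset Matrix Vale.Agent.P075 Vale.Agent.P141.PL Vale.Agent.P141.PL.H103 Vale.Agent.P141.H103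
open Vale.Agent.P141.PL.H588 Vale.Agent.P141.H585.PairCh Vale.Agent.P141.H505
open Vale.Agent.P141.H297.Ch
open Vale.Agent.P141.H43 (av av_half av_mono av_nonneg av_add av_sub av_mul)

noncomputable section

open scoped Classical

section births

variable {ι : Type*} [Fintype ι] [DecidableEq ι]

/-- the row cell is affected: the two slots differ on it -/
def AfC (k : ℕ) (c c' : ℤ → ℤ → ι → ℝ) (m y : ℤ) : Prop := ¬ ∀ x ∈ iv k m, c' x y = c x y

/-- the slot `c'` on the affected row cells of scale `k` -/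
def bP (k : ℕ) (c c' : ℤ → ℤ → ι → ℝ) (x y : ℤ) : ι → ℝ :=
  if AfC k c c' (ix k x) y then c' x y else 0

omit [DecidableEq ι] in
/-- the Gram matrix after the change is at most the old one plus the affected rows -/
theorem gram_aff {k : ℕ} (c c' : ℤ → ℤ → ι → ℝ) (r : ℝ) (j : ℕ)
    (R : ℤ → ℤ → Matrix ι ι ℝ) (a : ℕ) (n m : ℤ) :
    (Py (sl k m (st r j R c)) a n + Py (sl k m (st r j R (bP k c c'))) a n
      - Py (sl k m (st r j R c')) a n).PosSemidef := by
  refine PosSemidef.of_dotProduct_mulVec_nonneg ?_ fun v => ?_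
  · rw [IsHermitian, conjTranspose_eq_transpose_of_trivial, transpose_sub, transpose_add,
      Py_symm, Py_symm, Py_symm]
  · have h1 : star v = v := rfl
    rw [h1, sub_mulVec, add_mulVec, dotProduct_sub, dotProduct_add, Py_form, Py_form, Py_form,
      ← av_add, ← av_sub]
    refine av_nonneg fun y _ => ?_
    by_cases h : AfC k c c' m y
    · have e : sl k m (st r j R c') y = sl k m (st r j R (bP k c c')) y :=
        sl_congr fun x hx => st_congr (by
          unfold bP
          rw [mem_iv] at hx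
          rw [hx, if_pos h])
      rw [e]
      nlinarith [sq_nonneg (v ⬝ᵥ sl k m (st r j R c) y)]
    · unfold AfC at h
      push Not at h
      have e : sl k m (st r j R c') y = sl k m (st r j R c) y :=
        sl_congr fun x hx => st_congr (h x hx)
      rw [e]
      nlinarith [sq_nonneg (v ⬝ᵥ sl k m (st r j R (bP k c c')) y)]

/-- **the middle step for a path** -/
theorem SG_mid_Q {k : ℕ} (c c' : ℤ → ℤ → ι → ℝ) (r : ℝ)
    (R : ℤ → ℤ → Matrix ι ι ℝ) {μ : ℝ} (hμ : 0 < μ) (J a : ℕ) (n m : ℤ) :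
    SG μ J (Py (sl (k + 1) m (st r a R c')) a n)
        + (1 / 2) * SCr k μ J (Py (sl (k + 1) m (st r a R c')) a n)
      ≤ (1 / 2) * (SG μ J (Py (sl k (2 * m) (st r a R c)) a n)
          + SG μ J (Py (sl k (2 * m + 1) (st r a R c)) a n))
        + ((J : ℝ) + 1) * av a n fun y => av (k + 1) m fun x => es r R a (bP k c c') x y := by
  have h1 := SG_middle hμ J k m (st r a R c') a n
  have key : ∀ m', SG μ J (Py (sl k m' (st r a R c')) a n)
      ≤ SG μ J (Py (sl k m' (st r a R c)) a n)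
        + ((J : ℝ) + 1) * av a n fun y => av k m' fun x => es r R a (bP k c c') x y := by
    intro m'
    have g := gram_aff (k := k) c c' r a R a n m'
    have g1 := H435.SG_mono (Py_PSD (sl k m' (st r a R c')) a n) g hμ J
    rw [add_sub_cancel] at g1
    have g2 := H435.SG_add_le (Py_PSD (sl k m' (st r a R c)) a n)
      (Py_PSD (sl k m' (st r a R (bP k c c'))) a n) hμ J
    rw [tr_es] at g2
    exact g1.trans g2
  have k0 := key (2 * m)
  have k1 := key (2 * m + 1)
  have e : (av a n fun y => av (k + 1) m fun x => es r R a (bP k c c') x y)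
      = (1 / 2) * ((av a n fun y => av k (2 * m) fun x => es r R a (bP k c c') x y)
        + av a n fun y => av k (2 * m + 1) fun x => es r R a (bP k c c') x y) := by
    rw [← av_add, ← av_mul]
    exact congrArg _ (funext fun y => av_half _ _ _)
  rw [e]
  linarith

end births

section inst

variable {ι : Type*} [Fintype ι] [DecidableEq ι]

/-- the charge of the middle step -/
def pQ (J : ℕ) (r : ℝ) (R : ℕ → ℤ → ℤ → Matrix ι ι ℝ) (c : ℕ → ℤ → ℤ → ι → ℝ)
    (k a : ℕ) (n m : ℤ) : ℝ := ((J : ℝ) + 1)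
  * av a n fun y => av (k + 1) m fun x => es r (R a) a (bP k (c k) (c (k + 1))) x y

/-- **The stack family of hub x1, path slot, is a `Stk`.** -/
theorem stk_Q {k₀ N : ℕ} (hkN : k₀ ≤ N) {Rt S : ℤ} {μ : ℝ} (hμ : 0 < μ) (J : ℕ) {r : ℝ}
    (hr : r ≠ 0) {R D : ℕ → ℤ → ℤ → Matrix ι ι ℝ} {c : ℕ → ℤ → ℤ → ι → ℝ}
    (hM : ∀ a, k₀ ≤ a → a < N → Mvo (R a) (R (a + 1)) (D (a + 1)))
    {κ : ℝ} (hκ : ∀ k a x y, k₀ ≤ k → k ≤ a → a < N →
      es r (R (a + 1)) (a + 1) (c k) x y ≤ κ) (hκμ : μ / 4 ^ J * κ ≤ 1)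
    {H Qo Qm : ℝ}
    (hH : ∀ k a, k₀ ≤ k → k ≤ a → a ≤ N →
      ∑ x ∈ iv N S, ∑ y ∈ iv N Rt, es r (R a) a (c k) x y ≤ H)
    (hQo : ∀ l, ∑ k ∈ Ico k₀ (N - l), ∑ x ∈ iv N S, ∑ y ∈ iv N Rt,
      em r (R (k + l + 1)) (D (k + l + 1)) (k + l + 1) (c k) x y ≤ Qo)
    (hQm : ∀ l, ∑ k ∈ Ico k₀ (N - l), ∑ x ∈ iv N S, ∑ y ∈ iv N Rt,
      es r (R (k + 1 + l)) (k + 1 + l) (bP k (c k) (c (k + 1))) x y ≤ Qm) :
    H336.Stk k₀ N Rt S μ J (fun k => WO r R (c k) k)
      (fun k a n m => XH r R (c k) k a (2 * n) m)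
      (fun k a n m => XH r R (c k) k a (2 * n + 1) m)
      (fun k a n m => Nm r D k a n m) (fun k a n m => -Nm r D k a n m)
      (qO J r R D c) (pQ J r R c)
      (fun k a n m => (1 / 2) * SCr k μ J (WO r R (c (k + 1)) (k + 1) a n m))
      H (258 * ((J : ℝ) + 1) ^ 3 * Qo) (((J : ℝ) + 1) * Qm) where
  hkN := hkN
  hμ := hμ
  psd k a n m := WO_psd _ _ _ _ _ _ _
  psd0 k a n m := XO_psd _ _ _ _ _ _ _
  psd1 k a n m := XO_psd _ _ _ _ _ _ _
  nγ k a n m := mul_nonneg (by norm_num) (SCr_nonneg hμ J k (WO_psd _ _ _ _ _ _ _))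
  par k a n m _ _ _ := WO_par _ _ _ _ _ _ _
  ch0 k a n m h1 h2 h3 := WO_left hr (hM a (h1.trans h2) h3) (c k)
  ch1 k a n m h1 h2 h3 := WO_right hr (hM a (h1.trans h2) h3) (c k)
  out k a n m h1 h2 h3 := by
    have hcap : ∀ n', (1 - (μ / 4 ^ J) • XH r R (c k) k a n' m).PosSemidef := by
      intro n'
      refine Py_cap (κ := κ) (fun y _ => ?_) (by positivity) hκμ
      rw [sl_sq]
      have h4 : ∀ x ∈ iv k m, ∑ i, st r (a + 1) (R (a + 1)) (c k) x y i ^ 2 ≤ κ := by
        intro x _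
        have h5 := hκ k a x y h1 h2 h3
        unfold es at h5
        unfold st
        rw [Fintype.sum_sum_type]
        simpa only [Sum.elim_inl, Sum.elim_inr, Pi.smul_apply, smul_eq_mul, mul_pow,
          mul_sum] using h5
      refine (av_mono h4).trans (le_of_eq ?_)
      unfold Vale.Agent.P141.H43.av
      rw [sum_const, nsmul_eq_mul, card_iv]
      push_cast
      rw [← mul_assoc, inv_mul_cancel₀ (by positivity), one_mul]
    have h := SG_outer (XO_psd r R (c k) k a (2 * n) m) (XO_psd r R (c k) k a (2 * n + 1) m)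
      hμ J (hcap _) (hcap _) (Nm r D k a n m)
    rw [WO_left hr (hM a (h1.trans h2) h3) (c k), WO_right hr (hM a (h1.trans h2) h3) (c k),
      WO_par]
    have e : ∀ X : Matrix (Ix k × (ι ⊕ ι)) (Ix k × (ι ⊕ ι)) ℝ,
        mv (-Nm r D k a n m) X = (1 - Nm r D k a n m) * X * (1 - Nm r D k a n m)ᵀ := by
      intro X
      rw [mv, ← sub_eq_add_neg]
    rw [e, mv]
    have h6 := Nm_pair hr R D (c k) k a n m
    have p1 := tr_nonneg' (XO_psd r R (c k) k a (2 * n) m) (Nm r D k a n m)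
    have p2 := tr_nonneg' (XO_psd r R (c k) k a (2 * n + 1) m) (Nm r D k a n m)
    have p3 := tr_nonneg'' (XO_psd r R (c k) k a (2 * n) m) (Nm r D k a n m)
    have p4 := tr_nonneg'' (XO_psd r R (c k) k a (2 * n + 1) m) (Nm r D k a n m)
    have hJ : (0 : ℝ) ≤ ((J : ℝ) + 1) ^ 3 := by positivity
    have p5 : 0 ≤ av (a + 1) n fun y => av k m fun x =>
        em r (R (a + 1)) (D (a + 1)) (a + 1) (c k) x y :=
      av_nonneg fun y _ => av_nonneg fun x _ => em_nonneg _ _ _ _ _ _ _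
    have h7 : ((Nm r D k a n m)ᵀ * XH r R (c k) k a (2 * n) m * Nm r D k a n m).trace
        + (Nm r D k a n m * XH r R (c k) k a (2 * n + 1) m * (Nm r D k a n m)ᵀ).trace
        ≤ 2 * av (a + 1) n fun y => av k m fun x =>
          em r (R (a + 1)) (D (a + 1)) (a + 1) (c k) x y := by linarith
    have h8 := mul_le_mul_of_nonneg_left h7 (show (0 : ℝ) ≤ 128 * ((J : ℝ) + 1) ^ 3 by
      positivity)
    unfold qO
    nlinarith
  lip k a n m h1 h2 h3 := by
    have h6 := Nm_pair hr R D (c k) k a n m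
    have p3 := tr_nonneg'' (XO_psd r R (c k) k a (2 * n) m) (Nm r D k a n m)
    have p4 := tr_nonneg'' (XO_psd r R (c k) k a (2 * n + 1) m) (Nm r D k a n m)
    have p5 : 0 ≤ av (a + 1) n fun y => av k m fun x =>
        em r (R (a + 1)) (D (a + 1)) (a + 1) (c k) x y :=
      av_nonneg fun y _ => av_nonneg fun x _ => em_nonneg _ _ _ _ _ _ _
    have hJ : (1 : ℝ) ≤ ((J : ℝ) + 1) ^ 3 := one_le_pow₀ (by linarith [Nat.cast_nonneg (α := ℝ) J])
    rw [transpose_neg, Matrix.neg_mul, Matrix.neg_mul, Matrix.mul_neg, neg_neg]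
    unfold qO
    nlinarith
  mid k a n m h1 h2 h3 := SG_mid_Q (c k) (c (k + 1)) r (R a) hμ J a n m
  hH k a h1 h2 h3 := by
    have e : ∀ n m : ℤ, (WO r R (c k) k a n m).trace
        = av a n fun y => av k m fun x => es r (R a) a (c k) x y := fun n m => tr_es _ _ _ _ _ _ _
    simp only [e]
    rw [bs_av (h2.trans h3) h3]
    exact hH k a h1 h2 h3
  hQo l := by
    have h1 : ∀ k ∈ Ico k₀ (N - l), (2 : ℝ) ^ (k + l + 1) * 2 ^ k * ∑ m ∈ iv (N - k) S,
        ∑ n ∈ iv (N - (k + l + 1)) Rt, qO J r R D c k (k + l) n m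
        = 258 * ((J : ℝ) + 1) ^ 3 * ∑ x ∈ iv N S, ∑ y ∈ iv N Rt,
          em r (R (k + l + 1)) (D (k + l + 1)) (k + l + 1) (c k) x y := by
      intro k hk
      rw [mem_Ico] at hk
      unfold qO
      rw [← bs_av (show k ≤ N by omega) (show k + l + 1 ≤ N by omega)]
      simp only [← mul_sum]
      ring
    rw [sum_congr rfl h1, ← mul_sum]
    exact mul_le_mul_of_nonneg_left (hQo l) (by positivity)
  hQm l := by
    have h1 : ∀ k ∈ Ico k₀ (N - l), (2 : ℝ) ^ (k + 1 + l) * 2 ^ (k + 1)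
        * ∑ m ∈ iv (N - (k + 1)) S, ∑ n ∈ iv (N - (k + 1 + l)) Rt, pQ J r R c k (k + 1 + l) n m
        = ((J : ℝ) + 1) * ∑ x ∈ iv N S, ∑ y ∈ iv N Rt,
          es r (R (k + 1 + l)) (k + 1 + l) (bP k (c k) (c (k + 1))) x y := by
      intro k hk
      rw [mem_Ico] at hk
      unfold pQ
      rw [← bs_av (show k + 1 ≤ N by omega) (show k + 1 + l ≤ N by omega)]
      simp only [← mul_sum]
      ring
    rw [sum_congr rfl h1, ← mul_sum]
    exact mul_le_mul_of_nonneg_left (hQm l) (by positivity)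

end inst

end

end Vale.Agent.P141.H38.Q
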