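import Vale.Agent.P141.H38.StkP
import Vale.Agent.P141.H38.StkQ
import Vale.Agent.P141.H336.TVr
import Vale.Agent.P141.H125.Stk0

/-!
# P141, line (A): the moving stack for path slots, forms with the energy at the first scale

* hub `x3`: `stkP0 : Stk0` (125) and `stkPR : StkR` (336);
* hub `x1`: `stkQ0 : Stk0` and `stkQR : StkR`, numbers for every diagonal.
-/

namespace Vale.Agent.P141.H38.PR

open Finset Matrix Vale.Agent.P141.PL Vale.Agent.P141.PL.H103 Vale.Agent.P141.H103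
open Vale.Agent.P141.H505 Vale.Agent.P141.H258 Vale.Agent.P141.H293
open Vale.Agent.P141.H389 (Wf XW XWs)
open Vale.Agent.P075 (Ix val rad GX phi res phi_psd res_psd trace_mul_nonneg)
open Vale.Agent.P141.H585.PairCh (phs dls mv mv_zero)
open Vale.Agent.P141.H297.Ch (WO XH es em Nm SCr Mvo qO es_nonneg em_nonneg bs_av tr_es)
open Vale.Agent.P141.H43 (av)

noncomputable section

open scoped Classical

/-! ### Hub x3 -/

section x3

variable {κ : Type*} [Fintype κ] [DecidableEq κ]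

/-- the family, any numbers -/
theorem stkP_any {k₀ N : ℕ} (hkN : k₀ ≤ N) (R₁ S : ℤ) {W Nn M Nm : ℤ → ℕ → ℤ → Matrix κ κ ℝ}
    (h : Wf N W Nn M Nm) (b : ℕ → ℤ → ℤ → κ → ℝ) {μ : ℝ} (hμ : 0 < μ) (J : ℕ)
    (cap : ∀ k a n m, k₀ ≤ k → k + 1 ≤ a → a ≤ N →
      μ / 4 ^ J * (2 * (QW a (k + 1) (b (k + 1)) (fun x => W x (k + 1) m) n m).trace) ≤ 1)
    {Qm : ℝ} (hQ : ∑ k ∈ Ico k₀ N, cPk J N R₁ S W M Nm b k ≤ Qm) :
    H336.Stk k₀ N R₁ S μ J (fun k => XW (b k) W k) (fun k a n m => XW (b k) W k a (2 * n) m)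
      (fun k a n m => XW (b k) W k a (2 * n + 1) m) (fun _ _ _ _ => 0) (fun _ _ _ _ => 0)
      (fun _ _ _ _ => 0) (fun k a n m => pP J W M Nm b k a n m)
      (fun k a n m => (1 / 4) * SC μ J (rad (Ix k)) (XWs (b (k + 1)) W k a n m))
      (∑ k ∈ Icc k₀ N, ms N R₁ S (b k) (fun x m => W x k m) k) 0 Qm :=
  stkP hkN R₁ S h b hμ J cap (fun _ h1 h2 => single_le_sum
    (f := fun k => ms N R₁ S (b k) (fun x m => W x k m) k)
    (fun k _ => ms_nonneg N R₁ S (b k) k fun x m => (h.pd x k m).posSemidef)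
    (mem_Icc.2 ⟨h1, h2⟩)) hQ

theorem pP_nonneg {N : ℕ} {W Nn M Nm : ℤ → ℕ → ℤ → Matrix κ κ ℝ} (h : Wf N W Nn M Nm)
    (b : ℕ → ℤ → ℤ → κ → ℝ) (J k a : ℕ) (n m : ℤ) : 0 ≤ pP J W M Nm b k a n m := by
  have h1 : 0 ≤ (QW a (k + 1) (b (k + 1))
      (fun x => M x (k + 1) m * (W x (k + 1) m)⁻¹ * M x (k + 1) m) n m).trace := by
    rw [tr_QW1]
    refine mul_nonneg (by positivity) (sum_nonneg fun x _ => sum_nonneg fun y _ => ?_)
    exact H389.quad_nonneg (h.pd x _ _) (h.sM x _ _) _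
  have h2 : 0 ≤ (QW a (k + 1) (b (k + 1)) (fun x => Nm x (k + 1) m) n m).trace :=
    (QW_psd (fun x => h.pNm x _ _) _ _).trace_nonneg
  have h3 : 0 ≤ (QW a k (bA b k) (fun x => W x k (2 * m)) n (2 * m)).trace :=
    (QW_psd (fun x => (h.pd x _ _).posSemidef) _ _).trace_nonneg
  have h4 : 0 ≤ (QW a k (bA b k) (fun x => W x k (2 * m + 1)) n (2 * m + 1)).trace :=
    (QW_psd (fun x => (h.pd x _ _).posSemidef) _ _).trace_nonneg
  unfold pP
  positivity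

/-- the energies of the family over the plane -/
theorem XW_bsum {N k a : ℕ} (ha : a ≤ N) (hk : k ≤ N) (R₁ S : ℤ) (b : ℤ → ℤ → κ → ℝ)
    (W : ℤ → ℕ → ℤ → Matrix κ κ ℝ) :
    (2 : ℝ) ^ a * 2 ^ k * ∑ m ∈ iv (N - k) S, ∑ n ∈ iv (N - a) R₁, (XW b W k a n m).trace
      = ms N R₁ S b (fun x m => W x k m) k := by
  unfold XW
  exact bsum_tr ha hk R₁ S b (fun x m => W x k m)

/-- **Hub x3, path slot, energy at the first scale** (125's structure). -/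
theorem stkP0 {k₀ N : ℕ} (hkN : k₀ ≤ N) (R₁ S : ℤ) {W Nn M Nm : ℤ → ℕ → ℤ → Matrix κ κ ℝ}
    (h : Wf N W Nn M Nm) (b : ℕ → ℤ → ℤ → κ → ℝ) {μ : ℝ} (hμ : 0 < μ) (J : ℕ)
    (cap : ∀ k a n m, k₀ ≤ k → k + 1 ≤ a → a ≤ N →
      μ / 4 ^ J * (2 * (QW a (k + 1) (b (k + 1)) (fun x => W x (k + 1) m) n m).trace) ≤ 1)
    {H Qm : ℝ} (hH : ms N R₁ S (b k₀) (fun x m => W x k₀ m) k₀ ≤ H)
    (hQ : ∑ k ∈ Ico k₀ N, cPk J N R₁ S W M Nm b k ≤ Qm) :
    H125.S0.Stk0 k₀ N R₁ S μ J (fun k => XW (b k) W k)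
      (fun k a n m => XW (b k) W k a (2 * n) m)
      (fun k a n m => XW (b k) W k a (2 * n + 1) m) (fun _ _ _ _ => 0) (fun _ _ _ _ => 0)
      (fun _ _ _ _ => 0) (fun k a n m => pP J W M Nm b k a n m)
      (fun k a n m => (1 / 4) * SC μ J (rad (Ix k)) (XWs (b (k + 1)) W k a n m)) H 0 Qm :=
  have g := stkP_any hkN R₁ S h b hμ J cap hQ
  { hkN := g.hkN
    hμ := g.hμ
    psd := g.psd
    psd0 := g.psd0
    psd1 := g.psd1
    nγ := g.nγ
    np := fun k a n m => pP_nonneg h b J k a n m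
    par := g.par
    ch0 := g.ch0
    ch1 := g.ch1
    out := g.out
    lip := g.lip
    mid := g.mid
    hH := fun a _ h2 => by
      rw [XW_bsum h2 hkN R₁ S (b k₀) W]
      exact hH
    hQo := g.hQo
    hQm := g.hQm }

/-- **Hub x3, path slot, linear form** (336's structure). -/
theorem stkPR {k₀ N : ℕ} (hkN : k₀ ≤ N) (R₁ S : ℤ) {W Nn M Nm : ℤ → ℕ → ℤ → Matrix κ κ ℝ}
    (h : Wf N W Nn M Nm) (b : ℕ → ℤ → ℤ → κ → ℝ) {μ : ℝ} (hμ : 0 < μ) (J : ℕ)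
    (cap : ∀ k a n m, k₀ ≤ k → k + 1 ≤ a → a ≤ N →
      μ / 4 ^ J * (2 * (QW a (k + 1) (b (k + 1)) (fun x => W x (k + 1) m) n m).trace) ≤ 1)
    {H Qm : ℝ} (hH : ms N R₁ S (b k₀) (fun x m => W x k₀ m) k₀ ≤ H)
    (hQ : ∑ k ∈ Ico k₀ N, cPk J N R₁ S W M Nm b k ≤ Qm) :
    H336.StkR k₀ N R₁ S μ J (fun k => XW (b k) W k) (fun k a n m => XW (b k) W k a (2 * n) m)
      (fun k a n m => XW (b k) W k a (2 * n + 1) m) (fun _ _ _ _ => 0) (fun _ _ _ _ => 0)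
      (fun _ _ _ _ => 0) (fun k a n m => pP J W M Nm b k a n m)
      (fun k a n m => (1 / 4) * SC μ J (rad (Ix k)) (XWs (b (k + 1)) W k a n m))
      (fun _ => H) (fun _ => 0) (fun _ => Qm) :=
  have g := stkP_any hkN R₁ S h b hμ J cap hQ
  { hkN := g.hkN
    hμ := g.hμ
    psd := g.psd
    psd0 := g.psd0
    psd1 := g.psd1
    nγ := g.nγ
    np := fun k a n m => pP_nonneg h b J k a n m
    par := g.par
    ch0 := g.ch0
    ch1 := g.ch1
    out := g.out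
    lip := g.lip
    mid := g.mid
    nH := fun _ => (ms_nonneg N R₁ S (b k₀) k₀ fun x m => (h.pd x k₀ m).posSemidef).trans hH
    nQo := fun _ => le_rfl
    nQm := fun _ => (sum_nonneg fun k _ => cPk_nonneg h b J R₁ S k).trans hQ
    hH := fun r hr => by
      rw [XW_bsum hr hkN R₁ S (b k₀) W]
      exact hH
    hQo := g.hQo
    hQm := g.hQm }

end x3

/-! ### Hub x1 -/

section x1

variable {ι : Type*} [Fintype ι] [DecidableEq ι]

/-- energy of the stack of hub `x1` over the root, matrix of scale `a`, slot `c` -/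
def enO (N : ℕ) (S Rt : ℤ) (r : ℝ) (R : ℕ → ℤ → ℤ → Matrix ι ι ℝ) (a : ℕ)
    (c : ℤ → ℤ → ι → ℝ) : ℝ := ∑ x ∈ iv N S, ∑ y ∈ iv N Rt, es r (R a) a c x y

omit [DecidableEq ι] in
theorem enO_nonneg (N : ℕ) (S Rt : ℤ) (r : ℝ) (R : ℕ → ℤ → ℤ → Matrix ι ι ℝ) (a : ℕ)
    (c : ℤ → ℤ → ι → ℝ) : 0 ≤ enO N S Rt r R a c :=
  sum_nonneg fun _ _ => sum_nonneg fun _ _ => es_nonneg _ _ _ _ _ _

omit [DecidableEq ι] in
theorem WO_bsum {N k a : ℕ} (hk : k ≤ N) (ha : a ≤ N) (Rt S : ℤ) (r : ℝ)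
    (R : ℕ → ℤ → ℤ → Matrix ι ι ℝ) (c : ℤ → ℤ → ι → ℝ) :
    (2 : ℝ) ^ a * 2 ^ k * ∑ m ∈ iv (N - k) S, ∑ n ∈ iv (N - a) Rt, (WO r R c k a n m).trace
      = enO N S Rt r R a c := by
  have e : ∀ n m : ℤ, (WO r R c k a n m).trace
      = av a n fun y => av k m fun x => es r (R a) a c x y := fun n m => tr_es _ _ _ _ _ _ _
  simp only [e]
  exact bs_av hk ha Rt S fun x y => es r (R a) a c x y

/-- **Hub x1, path slot, linear form** (336's structure): a number for every diagonal. -/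
theorem stkQR {k₀ N : ℕ} (hkN : k₀ ≤ N) {Rt S : ℤ} {μ : ℝ} (hμ : 0 < μ) (J : ℕ) {r : ℝ}
    (hr : r ≠ 0) {R D : ℕ → ℤ → ℤ → Matrix ι ι ℝ} {c : ℕ → ℤ → ℤ → ι → ℝ}
    (hM : ∀ a, k₀ ≤ a → a < N → Mvo (R a) (R (a + 1)) (D (a + 1)))
    {κ : ℝ} (hκ : ∀ k a x y, k₀ ≤ k → k ≤ a → a < N →
      es r (R (a + 1)) (a + 1) (c k) x y ≤ κ) (hκμ : μ / 4 ^ J * κ ≤ 1)
    {H Qo Qm : ℕ → ℝ} (nH : ∀ l, 0 ≤ H l) (nQo : ∀ l, 0 ≤ Qo l) (nQm : ∀ l, 0 ≤ Qm l)
    (hH : ∀ l, k₀ + l ≤ N → enO N S Rt r R (k₀ + l) (c k₀) ≤ H l)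
    (hQo : ∀ l, ∑ k ∈ Ico k₀ (N - l), ∑ x ∈ iv N S, ∑ y ∈ iv N Rt,
      em r (R (k + l + 1)) (D (k + l + 1)) (k + l + 1) (c k) x y ≤ Qo l)
    (hQm : ∀ l, ∑ k ∈ Ico k₀ (N - l), ∑ x ∈ iv N S, ∑ y ∈ iv N Rt,
      es r (R (k + 1 + l)) (k + 1 + l) (Q.bP k (c k) (c (k + 1))) x y ≤ Qm l) :
    H336.StkR k₀ N Rt S μ J (fun k => WO r R (c k) k)
      (fun k a n m => XH r R (c k) k a (2 * n) m)
      (fun k a n m => XH r R (c k) k a (2 * n + 1) m)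
      (fun k a n m => Nm r D k a n m) (fun k a n m => -Nm r D k a n m)
      (qO J r R D c) (Q.pQ J r R c)
      (fun k a n m => (1 / 2) * SCr k μ J (WO r R (c (k + 1)) (k + 1) a n m))
      H (fun l => 258 * ((J : ℝ) + 1) ^ 3 * Qo l) (fun l => ((J : ℝ) + 1) * Qm l) := by
  have up : ∀ (f : ℕ → ℝ) (l : ℕ), (∀ l, 0 ≤ f l) → l ≤ N → f l ≤ ∑ l ∈ range (N + 1), f l :=
    fun f l h0 hl => single_le_sum (fun i _ => h0 i) (mem_range.2 (by omega))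
  have up0 : ∀ (f : ℕ → ℝ), (∀ l, 0 ≤ f l) → 0 ≤ ∑ l ∈ range (N + 1), f l :=
    fun f h0 => sum_nonneg fun i _ => h0 i
  have g := Q.stk_Q hkN (Rt := Rt) (S := S) hμ J hr hM hκ hκμ
    (H := ∑ k ∈ range (N + 1), ∑ a ∈ range (N + 1), enO N S Rt r R a (c k))
    (Qo := ∑ l ∈ range (N + 1), Qo l) (Qm := ∑ l ∈ range (N + 1), Qm l)
    (fun k a _ h2 h3 => (up (fun a => enO N S Rt r R a (c k)) a
      (fun a => enO_nonneg _ _ _ _ _ _ _) h3).trans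
      (up (fun k => ∑ a ∈ range (N + 1), enO N S Rt r R a (c k)) k
        (fun k => sum_nonneg fun a _ => enO_nonneg _ _ _ _ _ _ _) (h2.trans h3)))
    (fun l => by
      by_cases hl : l ≤ N
      · exact (hQo l).trans (up Qo l nQo hl)
      · rw [Ico_eq_empty (by omega), sum_empty]
        exact up0 Qo nQo)
    (fun l => by
      by_cases hl : l ≤ N
      · exact (hQm l).trans (up Qm l nQm hl)
      · rw [Ico_eq_empty (by omega), sum_empty]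
        exact up0 Qm nQm)
  exact
  { hkN := g.hkN
    hμ := g.hμ
    psd := g.psd
    psd0 := g.psd0
    psd1 := g.psd1
    nγ := g.nγ
    np := fun k a n m => mul_nonneg (by positivity) (H43.av_nonneg fun y _ =>
      H43.av_nonneg fun x _ => es_nonneg _ _ _ _ _ _)
    par := g.par
    ch0 := g.ch0
    ch1 := g.ch1
    out := g.out
    lip := g.lip
    mid := g.mid
    nH := nH
    nQo := fun l => mul_nonneg (by positivity) (nQo l)
    nQm := fun l => mul_nonneg (by positivity) (nQm l)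
    hH := fun l hl => by
      rw [WO_bsum hkN hl]
      exact hH l hl
    hQo := fun l => by
      have h1 : ∀ k ∈ Ico k₀ (N - l), (2 : ℝ) ^ (k + l + 1) * 2 ^ k * ∑ m ∈ iv (N - k) S,
          ∑ n ∈ iv (N - (k + l + 1)) Rt, qO J r R D c k (k + l) n m
          = 258 * ((J : ℝ) + 1) ^ 3 * ∑ x ∈ iv N S, ∑ y ∈ iv N Rt,
            em r (R (k + l + 1)) (D (k + l + 1)) (k + l + 1) (c k) x y := by
        intro k hk
        rw [mem_Ico] at hk
        unfold qO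
        rw [← bs_av (show k ≤ N by omega) (show k + l + 1 ≤ N by omega)]
        simp only [← mul_sum]
        ring
      rw [sum_congr rfl h1, ← mul_sum]
      exact mul_le_mul_of_nonneg_left (hQo l) (by positivity)
    hQm := fun l => by
      have h1 : ∀ k ∈ Ico k₀ (N - l), (2 : ℝ) ^ (k + 1 + l) * 2 ^ (k + 1)
          * ∑ m ∈ iv (N - (k + 1)) S, ∑ n ∈ iv (N - (k + 1 + l)) Rt, Q.pQ J r R c k (k + 1 + l) n m
          = ((J : ℝ) + 1) * ∑ x ∈ iv N S, ∑ y ∈ iv N Rt,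
            es r (R (k + 1 + l)) (k + 1 + l) (Q.bP k (c k) (c (k + 1))) x y := by
        intro k hk
        rw [mem_Ico] at hk
        unfold Q.pQ
        rw [← bs_av (show k + 1 ≤ N by omega) (show k + 1 + l ≤ N by omega)]
        simp only [← mul_sum]
        ring
      rw [sum_congr rfl h1, ← mul_sum]
      exact mul_le_mul_of_nonneg_left (hQm l) (by positivity) }

end x1

end

end Vale.Agent.P141.H38.PR
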