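import Vale.Agent.P141.H540.Lift
import Vale.Agent.P141.H911.Shift
import Vale.Agent.P141.H585.Ev

/-!
# P141, line W, end lemma: the power of the gauged lifts, summed over the offsets and over `x0`

`lfm a t d d' G k x y = a k x y * G k (t + d x + d' y)`: moving gauge, moving function of the line.
The squares which change are the events of the gauge and the squares which meet a changed point of
the line (`QM`).  `pow_sum`: the sum of the powers over a finite family of gauges and over the shifts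
`t = t0 + d0 x0` is at most `A2 * (#X0 * 2 ^ N * D) + L * EV`.
-/

namespace Vale.Agent.P141.H38

open Finset Vale.Agent.P141.PL
open Vale.Agent.P141.PL.H804 Vale.Agent.P141.H736 Vale.Agent.P141.H958 Vale.Agent.P141.H170
open Vale.Agent.P141.H540

noncomputable section

open scoped Classical

/-- the lift of a moving function of the line, with a moving gauge -/
def lfm (a : ℕ → ℤ → ℤ → ℝ) (t d d' : ℤ) (G : ℕ → ℤ → ℝ) (k : ℕ) (x y : ℤ) : ℝ :=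
  a k x y * G k (ln t d d' x y)

/-- the changed squares: events of the gauge, or squares which meet a changed point -/
def QM (ev : ℕ → ℤ → ℤ → Prop) (t d d' : ℤ) (T : ℕ → ℤ → Prop) (k : ℕ) (n m : ℤ) : Prop :=
  ev k n m ∨ QL t d d' T k n m

theorem lfm_static (a : ℤ → ℤ → ℝ) (t d d' : ℤ) (G : ℕ → ℤ → ℝ) :
    lfm (fun _ => a) t d d' G = lft a t d d' G := rfl

theorem lfm_zero (a : ℕ → ℤ → ℤ → ℝ) (t d d' : ℤ) {G : ℕ → ℤ → ℝ} (h : G 0 = 0) :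
    lfm a t d d' G 0 = 0 := by
  funext x y
  simp [lfm, h]

theorem path_lfm {N : ℕ} {R S : ℤ} {a : ℕ → ℤ → ℤ → ℝ} {ev : ℕ → ℤ → ℤ → Prop}
    {t d d' : ℤ} {T : ℕ → ℤ → Prop} {G : ℕ → ℤ → ℝ}
    (ha : ∀ k < N, ∀ n m, ¬ ev k n m → ∀ x ∈ iv k n, ∀ y ∈ iv k m, a (k + 1) x y = a k x y)
    (hT : ∀ k < N, ∀ s, ¬ T k s → G (k + 1) s = G k s) :
    Path N R S (QM ev t d d' T) (lfm a t d d' G) := by
  intro k hk n _ m _ hq x hx y hy
  unfold QM at hq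
  rw [not_or] at hq
  unfold lfm
  rw [ha k hk n m hq.1 x hx y hy, hT k hk _ fun h => hq.2 ⟨x, hx, y, hy, h⟩]

/-- the power of one gauged lift: the events of the gauge and the changes of the line -/
theorem pwr_lfm_le {N : ℕ} {R S : ℤ} {a : ℕ → ℤ → ℤ → ℝ} {ev : ℕ → ℤ → ℤ → Prop}
    {t d d' : ℤ} {T T' : ℕ → ℤ → Prop} {G : ℕ → ℤ → ℝ}
    (hT : ∀ k < N, ∀ s s', T k s' → |s - s'| ≤ (|d| + |d'|) * (2 ^ k - 1) → T' k s) :
    pwr N R S (QM ev t d d' T) (lfm a t d d' G) ≤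
      (∑ k ∈ range N, ∑ x ∈ iv N R, ∑ y ∈ iv N S, if ev k (ix k x) (ix k y) then
        a (k + 1) x y ^ 2 * G (k + 1) (ln t d d' x y) ^ 2 else 0) +
      ∑ k ∈ range N, ∑ x ∈ iv N R, ∑ y ∈ iv N S, if T' k (ln t d d' x y) then
        a (k + 1) x y ^ 2 * G (k + 1) (ln t d d' x y) ^ 2 else 0 := by
  unfold pwr
  rw [← sum_add_distrib]
  refine sum_le_sum fun k hk => ?_
  have hk' := mem_range.1 hk
  rw [sqQ_eq hk'.le, ← sum_add_distrib]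
  refine sum_le_sum fun x _ => ?_
  rw [← sum_add_distrib]
  refine sum_le_sum fun y _ => ?_
  have h0 : 0 ≤ a (k + 1) x y ^ 2 * G (k + 1) (ln t d d' x y) ^ 2 := by positivity
  have e0 : lfm a t d d' G (k + 1) x y ^ 2 =
      a (k + 1) x y ^ 2 * G (k + 1) (ln t d d' x y) ^ 2 := by unfold lfm; rw [mul_pow]
  by_cases h1 : ev k (ix k x) (ix k y)
  · have hq : QM ev t d d' T k (ix k x) (ix k y) := Or.inl h1
    rw [if_pos h1, if_pos hq, e0]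
    have : 0 ≤ (if T' k (ln t d d' x y) then
        a (k + 1) x y ^ 2 * G (k + 1) (ln t d d' x y) ^ 2 else 0) := by
      split_ifs
      · exact h0
      · exact le_rfl
    linarith
  · rw [if_neg h1, zero_add]
    by_cases h2 : QL t d d' T k (ix k x) (ix k y)
    · have hq : QM ev t d d' T k (ix k x) (ix k y) := Or.inr h2
      rw [if_pos hq, if_pos (QL_ix (hT k hk') h2), e0]
    · have hq : ¬ QM ev t d d' T k (ix k x) (ix k y) := fun h => h.elim h1 h2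
      rw [if_neg hq]
      split_ifs
      · exact h0
      · exact le_rfl

/-- **The sum of the powers over a family of gauges and over `x0`.** -/
theorem pow_sum {ι : Type*} {Θ : Finset ι} {X0 : Finset ℤ} {N : ℕ} {R S : ℤ}
    {a : ι → ℕ → ℤ → ℤ → ℝ} {ev : ι → ℕ → ℤ → ℤ → Prop} {t0 d0 d d' : ℤ} (hd : d' ≠ 0)
    {T T' : ℕ → ℤ → Prop} {I : Finset ℤ} {G : ℕ → ℤ → ℝ} {A2 D L EV : ℝ}
    (hA : ∀ k < N, ∀ x ∈ iv N R, ∀ y ∈ iv N S, ∑ θ ∈ Θ, a θ (k + 1) x y ^ 2 ≤ A2)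
    (hA0 : 0 ≤ A2)
    (hT : ∀ k < N, ∀ s s', T k s' → |s - s'| ≤ (|d| + |d'|) * (2 ^ k - 1) → T' k s)
    (hI : ∀ x0 ∈ X0, ∀ x ∈ iv N R, ∀ y ∈ iv N S, ln (t0 + d0 * x0) d d' x y ∈ I)
    (hD : ∑ k ∈ range N, ∑ s ∈ I, (if T' k s then G (k + 1) s ^ 2 else 0) ≤ D)
    (hL : ∀ k < N, ∀ x ∈ iv N R, ∀ y ∈ iv N S,
      ∑ x0 ∈ X0, G (k + 1) (ln (t0 + d0 * x0) d d' x y) ^ 2 ≤ L)
    (hL0 : 0 ≤ L)
    (hEV : ∑ k ∈ range N, ∑ θ ∈ Θ, ∑ x ∈ iv N R, ∑ y ∈ iv N S,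
      (if ev θ k (ix k x) (ix k y) then a θ (k + 1) x y ^ 2 else 0) ≤ EV) :
    ∑ θ ∈ Θ, ∑ x0 ∈ X0, pwr N R S (QM (ev θ) (t0 + d0 * x0) d d' T)
      (lfm (a θ) (t0 + d0 * x0) d d' G) ≤ A2 * (X0.card * (2 ^ N * D)) + L * EV := by
  have h1 : ∑ θ ∈ Θ, ∑ x0 ∈ X0, pwr N R S (QM (ev θ) (t0 + d0 * x0) d d' T)
      (lfm (a θ) (t0 + d0 * x0) d d' G) ≤
      (∑ θ ∈ Θ, ∑ x0 ∈ X0, ∑ k ∈ range N, ∑ x ∈ iv N R, ∑ y ∈ iv N S,
        if ev θ k (ix k x) (ix k y) then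
          a θ (k + 1) x y ^ 2 * G (k + 1) (ln (t0 + d0 * x0) d d' x y) ^ 2 else 0) +
      ∑ θ ∈ Θ, ∑ x0 ∈ X0, ∑ k ∈ range N, ∑ x ∈ iv N R, ∑ y ∈ iv N S,
        if T' k (ln (t0 + d0 * x0) d d' x y) then
          a θ (k + 1) x y ^ 2 * G (k + 1) (ln (t0 + d0 * x0) d d' x y) ^ 2 else 0 := by
    rw [← sum_add_distrib]
    refine sum_le_sum fun θ _ => ?_
    rw [← sum_add_distrib]
    exact sum_le_sum fun x0 _ => pwr_lfm_le hT
  -- the events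
  have h2 : (∑ θ ∈ Θ, ∑ x0 ∈ X0, ∑ k ∈ range N, ∑ x ∈ iv N R, ∑ y ∈ iv N S,
        if ev θ k (ix k x) (ix k y) then
          a θ (k + 1) x y ^ 2 * G (k + 1) (ln (t0 + d0 * x0) d d' x y) ^ 2 else 0) ≤ L * EV := by
    have e1 : (∑ θ ∈ Θ, ∑ x0 ∈ X0, ∑ k ∈ range N, ∑ x ∈ iv N R, ∑ y ∈ iv N S,
        if ev θ k (ix k x) (ix k y) then
          a θ (k + 1) x y ^ 2 * G (k + 1) (ln (t0 + d0 * x0) d d' x y) ^ 2 else 0) =
        ∑ k ∈ range N, ∑ θ ∈ Θ, ∑ x ∈ iv N R, ∑ y ∈ iv N S,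
          (if ev θ k (ix k x) (ix k y) then a θ (k + 1) x y ^ 2 else 0) *
            ∑ x0 ∈ X0, G (k + 1) (ln (t0 + d0 * x0) d d' x y) ^ 2 := by
      rw [sum_comm (s := range N)]
      refine sum_congr rfl fun θ _ => ?_
      rw [sum_comm (s := X0)]
      refine sum_congr rfl fun k _ => ?_
      rw [sum_comm (s := X0)]
      refine sum_congr rfl fun x _ => ?_
      rw [sum_comm (s := X0)]
      refine sum_congr rfl fun y _ => ?_
      split_ifs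
      · rw [mul_sum]
      · rw [sum_const_zero, zero_mul]
    rw [e1]
    refine le_trans ?_ (mul_le_mul_of_nonneg_left hEV hL0)
    rw [mul_sum]
    refine sum_le_sum fun k hk => ?_
    rw [mul_sum]
    refine sum_le_sum fun θ _ => ?_
    rw [mul_sum]
    refine sum_le_sum fun x hx => ?_
    rw [mul_sum]
    refine sum_le_sum fun y hy => ?_
    rw [mul_comm L]
    refine mul_le_mul_of_nonneg_left (hL k (mem_range.1 hk) x hx y hy) ?_
    split_ifs <;> positivity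
  -- the changes of the line
  have h3 : (∑ θ ∈ Θ, ∑ x0 ∈ X0, ∑ k ∈ range N, ∑ x ∈ iv N R, ∑ y ∈ iv N S,
        if T' k (ln (t0 + d0 * x0) d d' x y) then
          a θ (k + 1) x y ^ 2 * G (k + 1) (ln (t0 + d0 * x0) d d' x y) ^ 2 else 0) ≤
      A2 * (X0.card * (2 ^ N * D)) := by
    have e1 : (∑ θ ∈ Θ, ∑ x0 ∈ X0, ∑ k ∈ range N, ∑ x ∈ iv N R, ∑ y ∈ iv N S,
        if T' k (ln (t0 + d0 * x0) d d' x y) then
          a θ (k + 1) x y ^ 2 * G (k + 1) (ln (t0 + d0 * x0) d d' x y) ^ 2 else 0) =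
        ∑ x0 ∈ X0, ∑ k ∈ range N, ∑ x ∈ iv N R, ∑ y ∈ iv N S,
          (∑ θ ∈ Θ, a θ (k + 1) x y ^ 2) * (if T' k (ln (t0 + d0 * x0) d d' x y) then
            G (k + 1) (ln (t0 + d0 * x0) d d' x y) ^ 2 else 0) := by
      rw [sum_comm]
      refine sum_congr rfl fun x0 _ => ?_
      rw [sum_comm]
      refine sum_congr rfl fun k _ => ?_
      rw [sum_comm]
      refine sum_congr rfl fun x _ => ?_
      rw [sum_comm]
      refine sum_congr rfl fun y _ => ?_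
      split_ifs
      · rw [sum_mul]
      · rw [sum_const_zero, mul_zero]
    have e2 : ∀ x0 ∈ X0, (∑ k ∈ range N, ∑ x ∈ iv N R, ∑ y ∈ iv N S,
        (∑ θ ∈ Θ, a θ (k + 1) x y ^ 2) * (if T' k (ln (t0 + d0 * x0) d d' x y) then
            G (k + 1) (ln (t0 + d0 * x0) d d' x y) ^ 2 else 0)) ≤ A2 * (2 ^ N * D) := by
      intro x0 hx0
      calc _ ≤ ∑ k ∈ range N, A2 * (2 ^ N * ∑ s ∈ I, if T' k s then G (k + 1) s ^ 2 else 0) := by
            refine sum_le_sum fun k hk => ?_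
            have h4 := sum_ln_le (A := iv N R) (B := iv N S) (I := I) hd
              (P := fun x y => T' k (ln (t0 + d0 * x0) d d' x y)) (P' := T' k)
              (g := fun s => G (k + 1) s ^ 2) (fun s => sq_nonneg _) (hI x0 hx0)
              (fun x _ y _ h => h)
            rw [card_iv] at h4
            push_cast at h4
            refine le_trans ?_ (mul_le_mul_of_nonneg_left h4 hA0)
            rw [mul_sum]
            refine sum_le_sum fun x hx => ?_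
            rw [mul_sum]
            refine sum_le_sum fun y hy => ?_
            refine mul_le_mul_of_nonneg_right (hA k (mem_range.1 hk) x hx y hy) ?_
            split_ifs <;> positivity
        _ = A2 * (2 ^ N * ∑ k ∈ range N, ∑ s ∈ I, if T' k s then G (k + 1) s ^ 2 else 0) := by
            rw [mul_sum, mul_sum]
        _ ≤ _ := mul_le_mul_of_nonneg_left (mul_le_mul_of_nonneg_left hD (by positivity)) hA0
    rw [e1]
    refine (sum_le_sum e2).trans (le_of_eq ?_)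
    rw [sum_const, nsmul_eq_mul]
    ring
  exact h1.trans ((add_le_add h2 h3).trans (le_of_eq (by ring)))

/-! ### The gauges of a vertex-type atom -/

open Vale.Agent.P141.H585 (VC mnA sd12 sd13 sd23 rC rC_nonneg lvS evt ev_power uT_eq12 uT_eq13
  num12 num13)
open Vale.Agent.P141.H911 (Th uT sum_cs12 sum_cs13 sum_cs23 cs_pow)
open Vale.Agent.P141.H829 (rst abs_rst_le)
open Vale.Agent.P141.PL.H315 (Tri)

theorem sum_face (K : ℕ) (a b : ℤ) (f : ℤ × ℤ → ℝ) :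
    ∑ w ∈ PL.H315.iv K a ×ˢ PL.H315.iv K b, f w ^ 2 =
      4 ^ K * H922.n2 (PL.H315.iv K a ×ˢ PL.H315.iv K b) f ^ 2 := by
  rw [H922.n2_sq]
  unfold PL.H315.avg
  rw [card_product, PL.H315.card_iv, PL.H315.card_iv,
    show (4 : ℝ) ^ K = 2 ^ K * 2 ^ K by rw [← mul_pow]; norm_num]
  push_cast
  rw [mul_inv_cancel_left₀ (by positivity)]

theorem rst_sq_le {E F : Finset ℤ} {d g : ℤ × ℤ → ℝ} (h : ∀ r, |d r| ≤ |g r|) (r : ℤ × ℤ) :
    rst E F d r ^ 2 ≤ g r ^ 2 := by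
  rw [← sq_abs, ← sq_abs (g r)]
  exact pow_le_pow_left₀ (abs_nonneg _) ((abs_rst_le E F d r).trans (h r)) 2

section

variable {κ th : ℝ} {K k : ℕ} {c p q : Pt} {u v : Tri} {E1 E2 E3 : Finset ℤ}

/-- the translated edges of the main atom at one point, summed over the offsets -/
theorem gauge12 (hc : c.2.2 ≠ 0) (hv : VC κ K q u v E1 E2 E3) (x y : ℤ) :
    ∑ θ ∈ Th c K p q, (uT K q θ (mnA th E1 E2 E3 K k v)).1 (x, y) ^ 2 ≤
      4 ^ K * sd12 K q u ^ 2 := by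
  unfold uT
  simp_rw [cs_pow two_ne_zero]
  refine (sum_cs12 hc K p q (fun _ => sq_nonneg _) (x, y)).trans ?_
  refine (sum_le_sum fun w _ => rst_sq_le hv.le12 w).trans (le_of_eq ?_)
  exact sum_face K _ _ u.1

theorem gauge13 (hc : c.2.1 ≠ 0) (hv : VC κ K q u v E1 E2 E3) (x y : ℤ) :
    ∑ θ ∈ Th c K p q, (uT K q θ (mnA th E1 E2 E3 K k v)).2.1 (x, y) ^ 2 ≤
      4 ^ K * sd13 K q u ^ 2 := by
  unfold uT
  simp_rw [cs_pow two_ne_zero]
  refine (sum_cs13 hc K p q (fun _ => sq_nonneg _) (x, y)).trans ?_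
  refine (sum_le_sum fun w _ => rst_sq_le hv.le13 w).trans (le_of_eq ?_)
  exact sum_face K _ _ u.2.1

theorem gauge23 (hc : c.1 ≠ 0) (hv : VC κ K q u v E1 E2 E3) (x y : ℤ) :
    ∑ θ ∈ Th c K p q, (uT K q θ (mnA th E1 E2 E3 K k v)).2.2 (x, y) ^ 2 ≤
      4 ^ K * sd23 K q u ^ 2 := by
  unfold uT
  simp_rw [cs_pow two_ne_zero]
  refine (sum_cs23 hc K p q (fun _ => sq_nonneg _) (x, y)).trans ?_
  refine (sum_le_sum fun w _ => rst_sq_le hv.le23 w).trans (le_of_eq ?_)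
  exact sum_face K _ _ u.2.2

/-- the event squares of an edge with the carriers `E`, `E'` and the offsets `t`, `t'` -/
def evq (th : ℝ) (E E' : Finset ℤ) (K : ℕ) (t t' : ℤ) (k : ℕ) (n m : ℤ) : Prop :=
  evt th E K t k n ∨ evt th E' K t' k m

/-- the event points of one edge, one offset -/
theorem evs_gen {E E' : Finset ℤ} {t t' : ℤ} {h : ℝ} {d : ℤ × ℤ → ℝ} (hθ : 0 ≤ th)
    (hd : ∀ r, |d r| ≤ h) {A : ℕ → ℤ → ℤ → ℝ}
    (hA : ∀ k < K, ∀ x y, |A k x y| ≤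
      |rst (lvS th E K (k + 1)) (lvS th E' K (k + 1)) d (x + t, y + t')|) (R S : ℤ) :
    ∑ k ∈ range K, ∑ x ∈ iv K R, ∑ y ∈ iv K S,
      (if evq th E E' K t t' k (ix k x) (ix k y) then A k x y ^ 2 else 0) ≤
      12 * (h ^ 2 * ((E.card : ℝ) * E'.card)) := by
  have h1 := ev_power (X := {()}) (L := 1) (h := h) (t := t) (t' := t') (E := E) (E' := E')
    zero_le_one hθ hd (A := fun k _ x y => A k x y) (G := fun _ _ _ _ => 1)
    (fun k hk i _ x y => by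
      refine (hA k hk x y).trans (le_of_eq ?_)
      rw [abs_one, mul_one])
    (fun k _ x y => by simp) (fun k => iv (K - k) R) (fun k => iv (K - k) S)
  rw [sum_singleton, mul_one] at h1
  refine le_trans (le_of_eq ?_) (h1.trans (le_of_eq (by ring)))
  refine sum_congr rfl fun k hk => ?_
  have h2 := sqQ_eq (mem_range.1 hk).le R S (evq th E E' K t t' k) (A k)
  rw [← h2]
  unfold sqQ
  rw [sum_comm]
  refine sum_congr rfl fun n _ => sum_congr rfl fun m _ => ?_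
  by_cases hq : evq th E E' K t t' k n m
  · have hq' : evt th E K t k n ∨ evt th E' K t' k m := hq
    rw [if_pos hq, if_pos hq']
    unfold sqb H443.E2
    rw [sum_comm]
  · have hq' : ¬ (evt th E K t k n ∨ evt th E' K t' k m) := hq
    rw [if_neg hq, if_neg hq']

theorem abs_cs_le {Q : Finset (ℤ × ℤ)} {h : ℤ × ℤ} {f : ℤ × ℤ → ℝ} (x y : ℤ) :
    |PL.H560.cs Q h f (x, y)| ≤ |f (x + h.1, y + h.2)| := by
  by_cases hx : (x + h.1, y + h.2) ∈ Q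
  · rw [PL.H560.cs_of_mem hx]
  · rw [PL.H560.cs_of_not_mem hx, abs_zero]
    exact abs_nonneg _

/-- event points of the edge `12` -/
theorem evs12 (hθ : 0 ≤ th) (hv : VC κ K q u v E1 E2 E3) (τ : Pt) (R S : ℤ) :
    ∑ k ∈ range K, ∑ x ∈ iv K R, ∑ y ∈ iv K S,
      (if evq th E1 E2 K τ.1 τ.2.1 k (ix k x) (ix k y) then
        (uT K q τ (mnA th E1 E2 E3 K (k + 1) v)).1 (x, y) ^ 2 else 0) ≤
      12 * ((rC K q u ^ 2 * sd12 K q u / κ ^ 2) ^ 2 * ((E1.card : ℝ) * E2.card)) :=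
  evs_gen hθ hv.hgt12 (A := fun k x y => (uT K q τ (mnA th E1 E2 E3 K (k + 1) v)).1 (x, y))
    (fun _ _ x y => abs_cs_le x y) R S

/-- event points of the edge `13` -/
theorem evs13 (hθ : 0 ≤ th) (hv : VC κ K q u v E1 E2 E3) (τ : Pt) (R S : ℤ) :
    ∑ k ∈ range K, ∑ x ∈ iv K R, ∑ y ∈ iv K S,
      (if evq th E1 E3 K τ.1 τ.2.2 k (ix k x) (ix k y) then
        (uT K q τ (mnA th E1 E2 E3 K (k + 1) v)).2.1 (x, y) ^ 2 else 0) ≤
      12 * ((rC K q u ^ 2 * sd13 K q u / κ ^ 2) ^ 2 * ((E1.card : ℝ) * E3.card)) :=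
  evs_gen hθ hv.hgt13 (A := fun k x y => (uT K q τ (mnA th E1 E2 E3 K (k + 1) v)).2.1 (x, y))
    (fun _ _ x y => abs_cs_le x y) R S

/-- all offsets -/
theorem evs_sum {ι : Type*} {Θ : Finset ι} {W : ι → ℝ} {P n : ℝ} (hκ : 0 < κ)
    (hW : ∀ θ ∈ Θ, W θ ≤ 12 * P) (hP : κ ^ 8 * P ≤ 4 * n ^ 2 * 4 ^ K)
    (hΘ : (Θ.card : ℝ) ≤ 4 * 4 ^ K) :
    ∑ θ ∈ Θ, W θ ≤ 192 * n ^ 2 * 16 ^ K / κ ^ 8 := by
  have h8 : 0 < κ ^ 8 := by positivity
  have h1 : P ≤ 4 * n ^ 2 * 4 ^ K / κ ^ 8 := by rw [le_div_iff₀ h8]; linarith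
  have h2 : ∀ θ ∈ Θ, W θ ≤ 12 * (4 * n ^ 2 * 4 ^ K / κ ^ 8) := fun θ hθ => by
    have := hW θ hθ
    linarith
  refine (sum_le_sum h2).trans ?_
  rw [sum_const, nsmul_eq_mul]
  refine (mul_le_mul_of_nonneg_right hΘ (by positivity)).trans (le_of_eq ?_)
  rw [show (16 : ℝ) ^ K = 4 ^ K * 4 ^ K by rw [← mul_pow]; norm_num]
  ring

theorem card_Th {c : Pt} (hc : c.2.2 ≠ 0) (K : ℕ) (p q : Pt) :
    ((Th c K p q).card : ℝ) ≤ 4 * 4 ^ K := by
  exact_mod_cast H911.card_Th_le hc K p q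

/-- the gauge and the events of the edge `12` -/
def ga12 (K : ℕ) (q : Pt) (th : ℝ) (E1 E2 E3 : Finset ℤ) (v : Tri) (θ : Pt) (k : ℕ) (x y : ℤ) : ℝ :=
  (uT K q θ (mnA th E1 E2 E3 K k v)).1 (x, y)

@[inherit_doc ga12]
def ga13 (K : ℕ) (q : Pt) (th : ℝ) (E1 E2 E3 : Finset ℤ) (v : Tri) (θ : Pt) (k : ℕ) (x y : ℤ) : ℝ :=
  (uT K q θ (mnA th E1 E2 E3 K k v)).2.1 (x, y)

theorem ga12_eq (θ : Pt) {n m : ℤ} (h : ¬ evq th E1 E2 K θ.1 θ.2.1 k n m) {x y : ℤ}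
    (hx : x ∈ iv k n) (hy : y ∈ iv k m) :
    ga12 K q th E1 E2 E3 v θ (k + 1) x y = ga12 K q th E1 E2 E3 v θ k x y := by
  unfold evq at h
  rw [not_or] at h
  exact (uT_eq12 q θ h.1 h.2 hx hy).symm

theorem ga13_eq (θ : Pt) {n m : ℤ} (h : ¬ evq th E1 E3 K θ.1 θ.2.2 k n m) {x y : ℤ}
    (hx : x ∈ iv k n) (hy : y ∈ iv k m) :
    ga13 K q th E1 E2 E3 v θ (k + 1) x y = ga13 K q th E1 E2 E3 v θ k x y := by
  unfold evq at h
  rw [not_or] at h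
  exact (uT_eq13 q θ h.1 h.2 hx hy).symm

/-- **The gauged lifts of the edge `12` are paths.** -/
theorem path12 (θ : Pt) {R S t d d' : ℤ} {T : ℕ → ℤ → Prop} {G : ℕ → ℤ → ℝ}
    (hT : ∀ k < K, ∀ s, ¬ T k s → G (k + 1) s = G k s) :
    Path K R S (QM (evq th E1 E2 K θ.1 θ.2.1) t d d' T)
      (lfm (ga12 K q th E1 E2 E3 v θ) t d d' G) :=
  path_lfm (fun _ _ _ _ h _ hx _ hy => ga12_eq θ h hx hy) hT

/-- **The gauged lifts of the edge `13` are paths.** -/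
theorem path13 (θ : Pt) {R S t d d' : ℤ} {T : ℕ → ℤ → Prop} {G : ℕ → ℤ → ℝ}
    (hT : ∀ k < K, ∀ s, ¬ T k s → G (k + 1) s = G k s) :
    Path K R S (QM (evq th E1 E3 K θ.1 θ.2.2) t d d' T)
      (lfm (ga13 K q th E1 E2 E3 v θ) t d d' G) :=
  path_lfm (fun _ _ _ _ h _ hx _ hy => ga13_eq θ h hx hy) hT

variable {X0 : Finset ℤ} {R S t0 d0 d d' : ℤ} {T T' : ℕ → ℤ → Prop} {I : Finset ℤ}
  {G : ℕ → ℤ → ℝ} {D L : ℝ}

/-- **The power of the gauged lifts of the edge `12`**, summed over the offsets and over `x0`. -/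
theorem pow12 (hc : c.2.2 ≠ 0) (hκ : 0 < κ) (hθ : 0 ≤ th) (hv : VC κ K q u v E1 E2 E3)
    (hd : d' ≠ 0)
    (hT : ∀ k < K, ∀ s s', T k s' → |s - s'| ≤ (|d| + |d'|) * (2 ^ k - 1) → T' k s)
    (hI : ∀ x0 ∈ X0, ∀ x ∈ iv K R, ∀ y ∈ iv K S, ln (t0 + d0 * x0) d d' x y ∈ I)
    (hD : ∑ k ∈ range K, ∑ s ∈ I, (if T' k s then G (k + 1) s ^ 2 else 0) ≤ D)
    (hL : ∀ k < K, ∀ x ∈ iv K R, ∀ y ∈ iv K S,
      ∑ x0 ∈ X0, G (k + 1) (ln (t0 + d0 * x0) d d' x y) ^ 2 ≤ L) (hL0 : 0 ≤ L) :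
    ∑ θ ∈ Th c K p q, ∑ x0 ∈ X0,
      pwr K R S (QM (evq th E1 E2 K θ.1 θ.2.1) (t0 + d0 * x0) d d' T)
        (lfm (ga12 K q th E1 E2 E3 v θ) (t0 + d0 * x0) d d' G) ≤
      4 ^ K * sd12 K q u ^ 2 * (X0.card * (2 ^ K * D)) +
        L * (192 * sd12 K q u ^ 2 * 16 ^ K / κ ^ 8) := by
  refine pow_sum (a := ga12 K q th E1 E2 E3 v) (ev := fun θ => evq th E1 E2 K θ.1 θ.2.1)
    hd (fun k _ x _ y _ => gauge12 hc hv x y) (by positivity) hT hI hD hL hL0 ?_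
  rw [sum_comm]
  exact evs_sum hκ (fun θ _ => evs12 hθ hv θ R S) (num12 hκ hv) (card_Th hc K p q)

/-- **The power of the gauged lifts of the edge `13`**, summed over the offsets and over `x0`. -/
theorem pow13 (hc2 : c.2.1 ≠ 0) (hc : c.2.2 ≠ 0) (hκ : 0 < κ) (hθ : 0 ≤ th)
    (hv : VC κ K q u v E1 E2 E3) (hd : d' ≠ 0)
    (hT : ∀ k < K, ∀ s s', T k s' → |s - s'| ≤ (|d| + |d'|) * (2 ^ k - 1) → T' k s)
    (hI : ∀ x0 ∈ X0, ∀ x ∈ iv K R, ∀ y ∈ iv K S, ln (t0 + d0 * x0) d d' x y ∈ I)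
    (hD : ∑ k ∈ range K, ∑ s ∈ I, (if T' k s then G (k + 1) s ^ 2 else 0) ≤ D)
    (hL : ∀ k < K, ∀ x ∈ iv K R, ∀ y ∈ iv K S,
      ∑ x0 ∈ X0, G (k + 1) (ln (t0 + d0 * x0) d d' x y) ^ 2 ≤ L) (hL0 : 0 ≤ L) :
    ∑ θ ∈ Th c K p q, ∑ x0 ∈ X0,
      pwr K R S (QM (evq th E1 E3 K θ.1 θ.2.2) (t0 + d0 * x0) d d' T)
        (lfm (ga13 K q th E1 E2 E3 v θ) (t0 + d0 * x0) d d' G) ≤
      4 ^ K * sd13 K q u ^ 2 * (X0.card * (2 ^ K * D)) +
        L * (192 * sd13 K q u ^ 2 * 16 ^ K / κ ^ 8) := by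
  refine pow_sum (a := ga13 K q th E1 E2 E3 v) (ev := fun θ => evq th E1 E3 K θ.1 θ.2.2)
    hd (fun k _ x _ y _ => gauge13 hc2 hv x y) (by positivity) hT hI hD hL hL0 ?_
  rw [sum_comm]
  exact evs_sum hκ (fun θ _ => evs13 hθ hv θ R S) (num13 hκ hv) (card_Th hc K p q)

end

end

end Vale.Agent.P141.H38
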