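import Vale.Agent.P141.H293.Own3
import Vale.Agent.P141.H336.TVr

/-!
# P141, line (A): the moving stack at hub `x3`, functions of the time `k + 1` at the scale `k`

The family is `W k = XW (c (k + 1)) Th k`. The middle step keeps the slot `c (k + 1)` from the
halves of scale `k` to the scale `k + 1`; then the slot changes from `c (k + 1)` to `c (k + 2)` on
the affected row cells `Q (k + 1) x m` of the scale `k + 1`. Operator caps.
-/

namespace Vale.Agent.P141.H38.T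

open Finset Matrix Vale.Agent.P141.PL Vale.Agent.P141.PL.H103 Vale.Agent.P141.H103
open Vale.Agent.P141.H505 Vale.Agent.P141.H258 Vale.Agent.P141.H293
open Vale.Agent.P141.H389 (Wf XW XWs)
open Vale.Agent.P075 (Ix val rad GX phi res phi_psd res_psd trace_mul_nonneg)
open Vale.Agent.P141.H585.PairCh (phs dls mv mv_zero)

noncomputable section

variable {κ : Type*} [Fintype κ] [DecidableEq κ]

/-- error of the middle step -/
def pT (J : ℕ) (Th M Nm : ℤ → ℕ → ℤ → Matrix κ κ ℝ) (Q : ℕ → ℤ → ℤ → Prop)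
    (c : ℕ → ℤ → ℤ → κ → ℝ) (k a : ℕ) (n m : ℤ) : ℝ :=
  64 * ((J : ℝ) + 1) ^ 3 * (QW a (k + 1) (c (k + 1))
      (fun x => M x (k + 1) m * (Th x (k + 1) m)⁻¹ * M x (k + 1) m) n m).trace
    + ((J : ℝ) + 1) * (QW a (k + 1) (c (k + 1)) (fun x => Nm x (k + 1) m) n m).trace
    + ((J : ℝ) + 1) * (QW a (k + 1) (af Q c (k + 1)) (fun x => Th x (k + 1) m) n m).trace

/-- **The middle step**, the slot changes at the coarse scale. -/
theorem mid_T {k₀ N : ℕ} {Th Nn M Nm : ℤ → ℕ → ℤ → Matrix κ κ ℝ} (h : Wf N Th Nn M Nm)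
    {Q : ℕ → ℤ → ℤ → Prop} {c : ℕ → ℤ → ℤ → κ → ℝ}
    (hQ : ∀ k x m, k₀ ≤ k → k < N → ¬ Q (k + 1) x m →
      ∀ y ∈ iv (k + 1) m, c (k + 1) x y = c (k + 2) x y)
    {μ : ℝ} (hμ : 0 < μ) (J : ℕ) {k a : ℕ} (hk₀ : k₀ ≤ k) (hk : k < N) (n m : ℤ)
    (cap : (1 - (μ / 4 ^ J) • (2 : ℝ) • XW (c (k + 1)) Th (k + 1) a n m).PosSemidef) :
    SG μ J (XW (c (k + 2)) Th (k + 1) a n m)
        + (1 / 4) * SC μ J (rad (Ix k)) (XWs (c (k + 1)) Th k a n m)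
      ≤ (1 / 2) * (SG μ J (XW (c (k + 1)) Th k a n (2 * m))
          + SG μ J (XW (c (k + 1)) Th k a n (2 * m + 1)))
        + pT J Th M Nm Q c k a n m := by
  have pW : ∀ x k m, (Th x k m).PosSemidef := fun x k m => (h.pd x k m).posSemidef
  have w0 : ∀ x, Th x (k + 1) m + (Nn x (k + 1) m + Nm x (k + 1) m) - Nm x (k + 1) m
      + M x (k + 1) m = Th x k (2 * m) := by
    intro x; rw [h.left x k m hk]; abel
  have w1 : ∀ x, Th x (k + 1) m + (Nn x (k + 1) m + Nm x (k + 1) m) - Nm x (k + 1) m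
      - M x (k + 1) m = Th x k (2 * m + 1) := by
    intro x; rw [h.right x k m hk]; abel
  have key := mid_QW2 a k (c (k + 1)) (T := fun x => Th x (k + 1) m)
    (M := fun x => M x (k + 1) m) (Np := fun x => Nn x (k + 1) m + Nm x (k + 1) m)
    (Nm := fun x => Nm x (k + 1) m) (fun x => pW x _ _) (fun x => unit_det (h.pd x _ _))
    (fun x => h.sM x _ _) (fun x => h.pN x _ _) (fun x => h.pNm x _ _)
    (fun x => by rw [w0]; exact pW x _ _) (fun x => by rw [w1]; exact pW x _ _) n m hμ J cap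
  simp only [w0, w1] at key
  have s0 := SG_chg (k := k + 1) (m := m) (fun x => hQ k x m hk₀ hk)
    (T := fun x => Th x (k + 1) m) (fun x => pW x _ _) hμ J a n
  have f1 : SG μ J (XW (c (k + 2)) Th (k + 1) a n m)
      = SG μ J (QW a (k + 1) (c (k + 1 + 1)) (fun x => Th x (k + 1) m) n m) := rfl
  have f2 : SC μ J (rad (Ix k)) (XWs (c (k + 1)) Th k a n m)
      = SC (n := Ix k ⊕ Ix k) μ J (rad (Ix k))
        (QW a (k + 1) (c (k + 1)) (fun x => Th x (k + 1) m) n m) := rfl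
  have f3 : SG μ J (XW (c (k + 1)) Th k a n (2 * m))
      = SG μ J (QW a k (c (k + 1)) (fun x => Th x k (2 * m)) n (2 * m)) := rfl
  have f4 : SG μ J (XW (c (k + 1)) Th k a n (2 * m + 1))
      = SG μ J (QW a k (c (k + 1)) (fun x => Th x k (2 * m + 1)) n (2 * m + 1)) := rfl
  rw [f1, f2, f3, f4, pT]
  linarith

theorem pT_nonneg {N : ℕ} {Th Nn M Nm : ℤ → ℕ → ℤ → Matrix κ κ ℝ} (h : Wf N Th Nn M Nm)
    (Q : ℕ → ℤ → ℤ → Prop) (c : ℕ → ℤ → ℤ → κ → ℝ) (J k a : ℕ) (n m : ℤ) :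
    0 ≤ pT J Th M Nm Q c k a n m := by
  have h1 : 0 ≤ (QW a (k + 1) (c (k + 1))
      (fun x => M x (k + 1) m * (Th x (k + 1) m)⁻¹ * M x (k + 1) m) n m).trace := by
    rw [tr_QW1]
    refine mul_nonneg (by positivity) (sum_nonneg fun x _ => sum_nonneg fun y _ => ?_)
    exact H389.quad_nonneg (h.pd x _ _) (h.sM x _ _) _
  have h2 : 0 ≤ (QW a (k + 1) (c (k + 1)) (fun x => Nm x (k + 1) m) n m).trace :=
    (QW_psd (fun x => h.pNm x _ _) _ _).trace_nonneg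
  have h3 : 0 ≤ (QW a (k + 1) (af Q c (k + 1)) (fun x => Th x (k + 1) m) n m).trace :=
    (QW_psd (fun x => (h.pd x _ _).posSemidef) _ _).trace_nonneg
  unfold pT
  positivity

/-- the error of one scale, over the plane -/
def cT (J N : ℕ) (R S : ℤ) (Th M Nm : ℤ → ℕ → ℤ → Matrix κ κ ℝ) (Q : ℕ → ℤ → ℤ → Prop)
    (c : ℕ → ℤ → ℤ → κ → ℝ) (k : ℕ) : ℝ :=
  64 * ((J : ℝ) + 1) ^ 3 * ms N R S (c (k + 1))
      (fun x m => M x (k + 1) m * (Th x (k + 1) m)⁻¹ * M x (k + 1) m) (k + 1)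
    + ((J : ℝ) + 1) * ms N R S (c (k + 1)) (fun x m => Nm x (k + 1) m) (k + 1)
    + ((J : ℝ) + 1) * ms N R S (af Q c (k + 1)) (fun x m => Th x (k + 1) m) (k + 1)

theorem pT_sum {N a k : ℕ} (ha : a ≤ N) (hk : k < N) (J : ℕ) (R S : ℤ)
    (Th M Nm : ℤ → ℕ → ℤ → Matrix κ κ ℝ) (Q : ℕ → ℤ → ℤ → Prop) (c : ℕ → ℤ → ℤ → κ → ℝ) :
    (2 : ℝ) ^ a * 2 ^ (k + 1) * ∑ m ∈ iv (N - (k + 1)) S, ∑ n ∈ iv (N - a) R,
      pT J Th M Nm Q c k a n m = cT J N R S Th M Nm Q c k := by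
  have h1 := bsum_tr ha (show k + 1 ≤ N from hk) R S (c (k + 1))
    (fun x m => M x (k + 1) m * (Th x (k + 1) m)⁻¹ * M x (k + 1) m)
  have h2 := bsum_tr ha (show k + 1 ≤ N from hk) R S (c (k + 1)) (fun x m => Nm x (k + 1) m)
  have h3 := bsum_tr ha (show k + 1 ≤ N from hk) R S (af Q c (k + 1))
    (fun x m => Th x (k + 1) m)
  unfold cT
  rw [← h1, ← h2, ← h3]
  unfold pT
  simp only [Finset.sum_add_distrib, ← Finset.mul_sum]
  ring

theorem cT_nonneg {N : ℕ} {Th Nn M Nm : ℤ → ℕ → ℤ → Matrix κ κ ℝ} (h : Wf N Th Nn M Nm)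
    (Q : ℕ → ℤ → ℤ → Prop) (c : ℕ → ℤ → ℤ → κ → ℝ) (J : ℕ) (R S : ℤ) (k : ℕ) :
    0 ≤ cT J N R S Th M Nm Q c k := by
  have h1 : 0 ≤ ms N R S (c (k + 1))
      (fun x m => M x (k + 1) m * (Th x (k + 1) m)⁻¹ * M x (k + 1) m) (k + 1) :=
    Finset.sum_nonneg fun x _ => Finset.sum_nonneg fun y _ =>
      H389.quad_nonneg (h.pd x _ _) (h.sM x _ _) _
  have h2 := ms_nonneg N R S (c (k + 1)) (k + 1) fun x m => h.pNm x (k + 1) m
  have h3 := ms_nonneg N R S (af Q c (k + 1)) (k + 1)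
    fun x m => (h.pd x (k + 1) m).posSemidef
  unfold cT
  positivity

/-- the energies of the family over the plane -/
theorem XW_bsum {N k a : ℕ} (ha : a ≤ N) (hk : k ≤ N) (R S : ℤ) (b : ℤ → ℤ → κ → ℝ)
    (W : ℤ → ℕ → ℤ → Matrix κ κ ℝ) :
    (2 : ℝ) ^ a * 2 ^ k * ∑ m ∈ iv (N - k) S, ∑ n ∈ iv (N - a) R, (XW b W k a n m).trace
      = ms N R S b (fun x m => W x k m) k := by
  unfold XW
  exact bsum_tr ha hk R S b (fun x m => W x k m)

/-- the outer step: the parent is the mean of its halves -/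
theorem out_avg {n : Type*} [Fintype n] [DecidableEq n] {P X Y : Matrix n n ℝ}
    (e : P = (1 / 2 : ℝ) • (X + Y)) (p0 : X.PosSemidef) (p1 : Y.PosSemidef) {μ : ℝ}
    (hμ : 0 < μ) (J : ℕ) :
    SG μ J P + (1 / 4) * SD μ J X Y ≤ (1 / 2) * (SG μ J X + SG μ J Y) := by
  rw [e]
  have hs := sum_le_sum (s := range (J + 1)) fun j _ => (by
    have hj : 0 < μ / 4 ^ j := by positivity
    have r1 := P075.R.GX_row (smul_psd p0 hj.le) (smul_psd p1 hj.le)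
    rw [← smul_add, smul_comm] at r1
    exact mul_le_mul_of_nonneg_left r1 (inv_nonneg.2 hj.le) :
    (μ / 4 ^ j)⁻¹ * (GX ((μ / 4 ^ j) • ((1 / 2 : ℝ) • (X + Y)))
        + (1 / 2) * (P075.delt ((μ / 4 ^ j) • X) ((μ / 4 ^ j) • Y)).trace)
      ≤ (μ / 4 ^ j)⁻¹ * ((1 / 2) * (GX ((μ / 4 ^ j) • X) + GX ((μ / 4 ^ j) • Y))))
  have hd := H336.SD_nonneg p0 p1 hμ J
  unfold SG SD at *
  have e1 : ∀ u v : ℕ → ℝ, ∑ j ∈ range (J + 1), (μ / 4 ^ j)⁻¹ * (u j + (1 / 2) * v j)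
      = ∑ j ∈ range (J + 1), (μ / 4 ^ j)⁻¹ * u j
        + (1 / 2) * ∑ j ∈ range (J + 1), (μ / 4 ^ j)⁻¹ * v j := by
    intro u v
    rw [Finset.mul_sum, ← Finset.sum_add_distrib]
    exact Finset.sum_congr rfl fun j _ => by ring
  have e2 : ∀ u v : ℕ → ℝ, ∑ j ∈ range (J + 1), (μ / 4 ^ j)⁻¹ * ((1 / 2) * (u j + v j))
      = (1 / 2) * (∑ j ∈ range (J + 1), (μ / 4 ^ j)⁻¹ * u j
        + ∑ j ∈ range (J + 1), (μ / 4 ^ j)⁻¹ * v j) := by
    intro u v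
    rw [← Finset.sum_add_distrib, Finset.mul_sum]
    exact Finset.sum_congr rfl fun j _ => by ring
  rw [e1, e2] at hs
  linarith

/-- **Hub x3, functions of the time `k + 1` at the scale `k`, energy at the first scale.** -/
theorem stkT {k₀ N : ℕ} (hkN : k₀ ≤ N) (R S : ℤ) {Th Nn M Nm : ℤ → ℕ → ℤ → Matrix κ κ ℝ}
    (h : Wf N Th Nn M Nm) {Q : ℕ → ℤ → ℤ → Prop} {c : ℕ → ℤ → ℤ → κ → ℝ}
    (hQ : ∀ k x m, k₀ ≤ k → k < N → ¬ Q (k + 1) x m →
      ∀ y ∈ iv (k + 1) m, c (k + 1) x y = c (k + 2) x y)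
    {μ : ℝ} (hμ : 0 < μ) (J : ℕ)
    (cap : ∀ k a n m, k₀ ≤ k → k + 1 ≤ a → a ≤ N →
      (1 - (μ / 4 ^ J) • (2 : ℝ) • XW (c (k + 1)) Th (k + 1) a n m).PosSemidef)
    {H Qm : ℝ} (hH : ms N R S (c (k₀ + 1)) (fun x m => Th x k₀ m) k₀ ≤ H)
    (hQm : ∑ k ∈ Ico k₀ N, cT J N R S Th M Nm Q c k ≤ Qm) :
    H125.S0.Stk0 k₀ N R S μ J (fun k => XW (c (k + 1)) Th k)
      (fun k a n m => XW (c (k + 1)) Th k a (2 * n) m)
      (fun k a n m => XW (c (k + 1)) Th k a (2 * n + 1) m) (fun _ _ _ _ => 0)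
      (fun _ _ _ _ => 0) (fun _ _ _ _ => 0) (fun k a n m => pT J Th M Nm Q c k a n m)
      (fun k a n m => (1 / 4) * SC μ J (rad (Ix k)) (XWs (c (k + 1)) Th k a n m)) H 0 Qm where
  hkN := hkN
  hμ := hμ
  psd := fun k a n m => H389.XW_psd h (c (k + 1)) k a n m
  psd0 := fun k a n m => H389.XW_psd h (c (k + 1)) k a _ m
  psd1 := fun k a n m => H389.XW_psd h (c (k + 1)) k a _ m
  nγ := fun k a n m => mul_nonneg (by norm_num)
    (SC_nonneg (H389.XW_psd h (c (k + 1)) (k + 1) a n m) hμ J)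
  np := fun k a n m => pT_nonneg h Q c J k a n m
  par := fun k a n m _ h2 h3 => H389.XW_out N k (c (k + 1)) Th a h2 h3 n m
  ch0 := fun k a n m _ _ _ => (mv_zero _).symm
  ch1 := fun k a n m _ _ _ => (mv_zero _).symm
  out := fun k a n m _ h2 h3 => by
    rw [add_zero]
    exact out_avg (H389.XW_out N k (c (k + 1)) Th a h2 h3 n m)
      (H389.XW_psd h (c (k + 1)) k a (2 * n) m) (H389.XW_psd h (c (k + 1)) k a (2 * n + 1) m)
      hμ J
  lip := fun k a n m _ _ _ => by simp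
  mid := fun k a n m h1 h2 h3 => mid_T h hQ hμ J h1 (by omega) n m (cap k a n m h1 h2 h3)
  hH := fun a _ h2 => by
    rw [XW_bsum h2 hkN R S (c (k₀ + 1)) Th]
    exact hH
  hQo := fun r => by simp
  hQm := fun r => by
    have e : ∀ k ∈ Ico k₀ (N - r), (2 : ℝ) ^ (k + 1 + r) * 2 ^ (k + 1)
        * ∑ m ∈ iv (N - (k + 1)) S, ∑ n ∈ iv (N - (k + 1 + r)) R,
          pT J Th M Nm Q c k (k + 1 + r) n m
        = cT J N R S Th M Nm Q c k := by
      intro k hk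
      rw [mem_Ico] at hk
      exact pT_sum (by omega) (by omega) J R S Th M Nm Q c
    rw [Finset.sum_congr rfl e]
    refine le_trans (Finset.sum_le_sum_of_subset_of_nonneg ?_ fun k hk _ => ?_) hQm
    · exact Ico_subset_Ico le_rfl (by omega)
    · exact cT_nonneg h Q c J R S k

/-- **The same, linear form.** -/
theorem stkTR {k₀ N : ℕ} (hkN : k₀ ≤ N) (R S : ℤ) {Th Nn M Nm : ℤ → ℕ → ℤ → Matrix κ κ ℝ}
    (h : Wf N Th Nn M Nm) {Q : ℕ → ℤ → ℤ → Prop} {c : ℕ → ℤ → ℤ → κ → ℝ}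
    (hQ : ∀ k x m, k₀ ≤ k → k < N → ¬ Q (k + 1) x m →
      ∀ y ∈ iv (k + 1) m, c (k + 1) x y = c (k + 2) x y)
    {μ : ℝ} (hμ : 0 < μ) (J : ℕ)
    (cap : ∀ k a n m, k₀ ≤ k → k + 1 ≤ a → a ≤ N →
      (1 - (μ / 4 ^ J) • (2 : ℝ) • XW (c (k + 1)) Th (k + 1) a n m).PosSemidef)
    {H Qm : ℝ} (hH : ms N R S (c (k₀ + 1)) (fun x m => Th x k₀ m) k₀ ≤ H)
    (hQm : ∑ k ∈ Ico k₀ N, cT J N R S Th M Nm Q c k ≤ Qm) :
    H336.StkR k₀ N R S μ J (fun k => XW (c (k + 1)) Th k)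
      (fun k a n m => XW (c (k + 1)) Th k a (2 * n) m)
      (fun k a n m => XW (c (k + 1)) Th k a (2 * n + 1) m) (fun _ _ _ _ => 0)
      (fun _ _ _ _ => 0) (fun _ _ _ _ => 0) (fun k a n m => pT J Th M Nm Q c k a n m)
      (fun k a n m => (1 / 4) * SC μ J (rad (Ix k)) (XWs (c (k + 1)) Th k a n m))
      (fun _ => H) (fun _ => 0) (fun _ => Qm) :=
  have g := stkT hkN R S h hQ hμ J cap hH hQm
  { hkN := g.hkN
    hμ := g.hμ
    psd := g.psd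
    psd0 := g.psd0
    psd1 := g.psd1
    nγ := g.nγ
    np := g.np
    par := g.par
    ch0 := g.ch0
    ch1 := g.ch1
    out := g.out
    lip := g.lip
    mid := g.mid
    nH := fun _ => g.H_nonneg
    nQo := fun _ => g.Qo_nonneg
    nQm := fun _ => g.Qm_nonneg
    hH := fun r hr => g.hH (k₀ + r) (by omega) hr
    hQo := g.hQo
    hQm := g.hQm }

end

end Vale.Agent.P141.H38.T
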