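import Vale.Agent.P141.H540.Star2
import Vale.Agent.P141.H911.Fibre2
import Vale.Agent.P141.H911.Shift

/-!
# P141, line W, end lemma: the residual part, from the boxes to the births

The boxes `(k; m0, m)`, `m0 + m.1 + m.2.1 + m.2.2 = o - 2`, of the scales `k ≤ K` are grouped by
their ancestors `M` of the birth scale `K`.

* `group_one`: one birth; the sum over the boxes is at most the sum over the quadruples `M` of the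
  sums in the form of `H540.star_fam`;
* `card_quad_le`: the number of the quadruples which see the birth is at most
  `1188 * 4 ^ (Λ - K)`;
* `tres`: the sum over the births.
-/

namespace Vale.Agent.P141.H38

open Finset
open Vale.Agent.P141.PL (iv ix Pt cx mem_iv ix_ix el)
open Vale.Agent.P141.PL.H804 (bx3)
open Vale.Agent.P141.H911

noncomputable section

/-- the differences from a point of `Fin 4` -/
theorem abs_four : ∀ x : Fin 4, ∑ u : Fin 4, (((u : ℕ) : ℤ) - ((x : ℕ) : ℤ)).natAbs ≤ 6 := by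
  decide

open scoped Classical

theorem mem_bx3 {N : ℕ} {R : Pt} {k : ℕ} {c : ℤ} {m : Pt} :
    m ∈ bx3 N R k c ↔ (ix (N - k) m.1 = R.1 ∧ ix (N - k) m.2.1 = R.2.1 ∧
      ix (N - k) m.2.2 = R.2.2) ∧ m.1 + m.2.1 + m.2.2 = c := by
  unfold bx3
  rw [mem_filter, mem_product, mem_product, mem_iv, mem_iv, mem_iv]

/-- the boxes of scale `k` below the cell `M` over `x0` -/
def sbx (B : ℕ → Finset (ℤ × Pt)) (o : ℤ) (K : ℕ) (M : Pt) (x0 : ℤ) (k : ℕ) : Finset Pt :=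
  (bx3 K M k (o - 2 - ix k x0)).filter fun m => (ix k x0, m) ∈ B k

theorem sbx_sub (B : ℕ → Finset (ℤ × Pt)) (o : ℤ) (K : ℕ) (M : Pt) (x0 : ℤ) (k : ℕ) :
    sbx B o K M x0 k ⊆ bx3 K M k (o - 2 - ix k x0) := filter_subset _ _

/-- one scale, one quadruple, one offset -/
theorem group_scale {o : ℤ} {K k : ℕ} (hk : k ≤ K) {B : ℕ → Finset (ℤ × Pt)}
    (hB : ∀ b ∈ B k, b.2.1 + b.2.2.1 + b.2.2.2 = o - 2 - b.1) (M : ℤ × Pt)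
    {Φ : ℤ → Pt → ℝ} (hΦ : ∀ x0 m, 0 ≤ Φ x0 m) :
    ∑ b ∈ (B k).filter (fun b => (ix (K - k) b.1, cx (K - k) b.2) = M),
      ∑ x0 ∈ iv k b.1, Φ x0 b.2 ≤
    ∑ x0 ∈ iv K M.1, ∑ m ∈ sbx B o K M.2 x0 k, Φ x0 m := by
  set B' := (B k).filter (fun b => (ix (K - k) b.1, cx (K - k) b.2) = M) with hB'
  have h1 : ∀ b ∈ B', ∑ x0 ∈ iv k b.1, Φ x0 b.2 =
      ∑ x0 ∈ iv K M.1, if b.1 = ix k x0 then Φ x0 b.2 else 0 := by
    intro b hb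
    rw [hB', mem_filter] at hb
    have hM : ix (K - k) b.1 = M.1 := congrArg Prod.fst hb.2
    rw [← sum_filter]
    refine sum_congr ?_ fun _ _ => rfl
    ext x0
    rw [mem_filter, mem_iv, mem_iv]
    constructor
    · intro h
      refine ⟨?_, h.symm⟩
      rw [← hM, ← h, ix_ix, Nat.add_sub_cancel' hk]
    · rintro ⟨_, h⟩
      exact h.symm
  rw [sum_congr rfl h1, sum_comm]
  refine sum_le_sum fun x0 _ => ?_
  rw [← sum_filter]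
  have hinj : Set.InjOn (fun b : ℤ × Pt => b.2) (B'.filter fun b => b.1 = ix k x0 : Finset _) := by
    intro b hb b' hb' h
    have h3 := (mem_filter.1 (mem_coe.1 hb)).2
    have h4 := (mem_filter.1 (mem_coe.1 hb')).2
    exact Prod.ext (h3.trans h4.symm) h
  rw [← sum_image (f := fun m => Φ x0 m) (g := fun b : ℤ × Pt => b.2) hinj]
  refine sum_le_sum_of_subset_of_nonneg ?_ fun m _ _ => hΦ x0 m
  intro m hm
  rw [mem_image] at hm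
  obtain ⟨b, hb, rfl⟩ := hm
  rw [mem_filter, hB', mem_filter] at hb
  obtain ⟨⟨hb1, hb2⟩, hb3⟩ := hb
  have hM2 : cx (K - k) b.2 = M.2 := congrArg Prod.snd hb2
  unfold sbx
  rw [mem_filter, mem_bx3]
  refine ⟨⟨⟨?_, ?_, ?_⟩, ?_⟩, ?_⟩
  · rw [← hM2]; rfl
  · rw [← hM2]; rfl
  · rw [← hM2]; rfl
  · rw [hB b hb1, hb3]
  · rw [← hb3]; exact hb1

/-- **One birth**: grouping of the boxes by their ancestors of the birth scale. -/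
theorem group_one {τ : Type*} {o : ℤ} {K : ℕ} {B : ℕ → Finset (ℤ × Pt)}
    (hB : ∀ k, ∀ b ∈ B k, b.2.1 + b.2.2.1 + b.2.2.2 = o - 2 - b.1)
    {Θ : Pt → Finset τ} {Φ : τ → ℤ → ℕ → Pt → ℝ} (hΦ : ∀ θ x0 k m, 0 ≤ Φ θ x0 k m)
    {Q : Finset (ℤ × Pt)} (hQ : ∀ k ∈ Icc 1 K, ∀ b ∈ B k, (Θ (cx (K - k) b.2)).Nonempty →
      (ix (K - k) b.1, cx (K - k) b.2) ∈ Q) :
    ∑ k ∈ Icc 1 K, (2 ^ k : ℝ)⁻¹ * ∑ b ∈ B k, ∑ θ ∈ Θ (cx (K - k) b.2),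
      ∑ x0 ∈ iv k b.1, Φ θ x0 k b.2 ≤
    ∑ M ∈ Q, ∑ θ ∈ Θ M.2, ∑ x0 ∈ iv K M.1, ∑ k ∈ Icc 1 K, (2 ^ k : ℝ)⁻¹ *
      ∑ m ∈ sbx B o K M.2 x0 k, Φ θ x0 k m := by
  have e1 : ∑ M ∈ Q, ∑ θ ∈ Θ M.2, ∑ x0 ∈ iv K M.1, ∑ k ∈ Icc 1 K, (2 ^ k : ℝ)⁻¹ *
      ∑ m ∈ sbx B o K M.2 x0 k, Φ θ x0 k m =
      ∑ k ∈ Icc 1 K, (2 ^ k : ℝ)⁻¹ * ∑ M ∈ Q, ∑ θ ∈ Θ M.2, ∑ x0 ∈ iv K M.1,
        ∑ m ∈ sbx B o K M.2 x0 k, Φ θ x0 k m := by
    simp_rw [mul_sum]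
    rw [sum_comm (s := Icc 1 K)]
    refine sum_congr rfl fun M _ => ?_
    rw [sum_comm (s := Icc 1 K)]
    refine sum_congr rfl fun θ _ => ?_
    rw [sum_comm (s := Icc 1 K)]
  rw [e1]
  refine sum_le_sum fun k hk => mul_le_mul_of_nonneg_left ?_ (by positivity)
  have hkK := (mem_Icc.1 hk).2
  set F : ℤ × Pt → ℝ := fun b => ∑ θ ∈ Θ (cx (K - k) b.2), ∑ x0 ∈ iv k b.1, Φ θ x0 k b.2
    with hF
  have h1 : ∑ b ∈ B k, F b = ∑ b ∈ (B k).filter (fun b => (Θ (cx (K - k) b.2)).Nonempty), F b := by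
    rw [sum_filter_of_ne]
    intro b _ hne
    by_contra h
    rw [not_nonempty_iff_eq_empty] at h
    apply hne
    simp only [hF, h, sum_empty]
  have h2 : ∑ b ∈ (B k).filter (fun b => (Θ (cx (K - k) b.2)).Nonempty), F b =
      ∑ M ∈ Q, ∑ b ∈ ((B k).filter (fun b => (Θ (cx (K - k) b.2)).Nonempty)).filter
        (fun b => (ix (K - k) b.1, cx (K - k) b.2) = M), F b :=
    (sum_fiberwise_of_maps_to (g := fun b : ℤ × Pt => (ix (K - k) b.1, cx (K - k) b.2))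
      (fun b hb => hQ k hk b (mem_filter.1 hb).1 (mem_filter.1 hb).2) F).symm
  show ∑ b ∈ B k, F b ≤ _
  rw [h1, h2]
  refine sum_le_sum fun M _ => ?_
  have h3 : ∑ b ∈ ((B k).filter (fun b => (Θ (cx (K - k) b.2)).Nonempty)).filter
        (fun b => (ix (K - k) b.1, cx (K - k) b.2) = M), F b ≤
      ∑ b ∈ (B k).filter (fun b => (ix (K - k) b.1, cx (K - k) b.2) = M), F b := by
    refine sum_le_sum_of_subset_of_nonneg ?_ fun b _ _ => ?_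
    · intro b hb
      rw [mem_filter, mem_filter] at hb
      exact mem_filter.2 ⟨hb.1.1, hb.2⟩
    · exact sum_nonneg fun _ _ => sum_nonneg fun _ _ => hΦ _ _ _ _
  refine h3.trans ?_
  have h4 : ∑ b ∈ (B k).filter (fun b => (ix (K - k) b.1, cx (K - k) b.2) = M), F b =
      ∑ θ ∈ Θ M.2, ∑ b ∈ (B k).filter (fun b => (ix (K - k) b.1, cx (K - k) b.2) = M),
        ∑ x0 ∈ iv k b.1, Φ θ x0 k b.2 := by
    rw [sum_comm]
    refine sum_congr rfl fun b hb => ?_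
    have hM2 : cx (K - k) b.2 = M.2 := congrArg Prod.snd (mem_filter.1 hb).2
    simp only [hF, hM2]
  rw [h4]
  exact sum_le_sum fun θ _ => group_scale hkK (hB k) M fun x0 m => hΦ θ x0 k m

/-! ### The number of the quadruples -/

/-- the quadruple with the first two cells `a`, the sum `s` and the value `b` of the form `c` -/
def qd (c : Pt) (w : (ℤ × ℤ) × ℤ × ℤ) : ℤ × Pt :=
  (w.1.1, (w.1.2,
    w.2.1 - w.1.1 - w.1.2 - (w.2.2 - c.1 * w.1.2 - c.2.1 * (w.2.1 - w.1.1 - w.1.2)) /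
      (c.2.2 - c.2.1),
    (w.2.2 - c.1 * w.1.2 - c.2.1 * (w.2.1 - w.1.1 - w.1.2)) / (c.2.2 - c.2.1)))

/-- the quadruples in the window `[0, 6 2 ^ J)²` with sum in `[-3, -1]` and form close to `b` -/
def Qd (c : Pt) (b : ℤ) (J : ℕ) : Finset (ℤ × Pt) :=
  (((Ico 0 (6 * 2 ^ J) ×ˢ Ico 0 (6 * 2 ^ J)) ×ˢ (Icc (-3) (-1) ×ˢ Icc (b - 5) (b + 5))) :
    Finset ((ℤ × ℤ) × ℤ × ℤ)).image (qd c)

theorem mem_Qd {c : Pt} (hc : c.2.1 ≠ c.2.2) {b : ℤ} {J : ℕ} {M : ℤ × Pt}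
    (h0 : M.1 ∈ Ico 0 (6 * 2 ^ J)) (h1 : M.2.1 ∈ Ico 0 (6 * 2 ^ J))
    (hs : M.1 + M.2.1 + M.2.2.1 + M.2.2.2 ∈ Icc (-3) (-1))
    (hf : |el c M.2 - b| ≤ 5) : M ∈ Qd c b J := by
  unfold Qd
  rw [mem_image]
  refine ⟨((M.1, M.2.1), (M.1 + M.2.1 + M.2.2.1 + M.2.2.2, el c M.2)), ?_, ?_⟩
  · rw [mem_product, mem_product, mem_product]
    refine ⟨⟨h0, h1⟩, hs, ?_⟩
    rw [abs_le] at hf
    rw [mem_Icc]
    constructor <;> linarith [hf.1, hf.2]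
  · have hne : c.2.2 - c.2.1 ≠ 0 := sub_ne_zero.2 (Ne.symm hc)
    have e1 : el c M.2 - c.1 * M.2.1 - c.2.1 * (M.1 + M.2.1 + M.2.2.1 + M.2.2.2 - M.1 - M.2.1) =
        (c.2.2 - c.2.1) * M.2.2.2 := by
      unfold el; ring
    unfold qd
    simp only [e1, Int.mul_ediv_cancel_left _ hne]
    refine Prod.ext rfl (Prod.ext rfl (Prod.ext ?_ rfl))
    simp only
    ring

theorem card_Qd_le (c : Pt) (b : ℤ) (J : ℕ) : ((Qd c b J).card : ℝ) ≤ 1188 * 4 ^ J := by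
  have h1 : (Qd c b J).card ≤ (6 * 2 ^ J) * (6 * 2 ^ J) * (3 * 11) := by
    refine card_image_le.trans (le_of_eq ?_)
    have e2 : ((6 : ℤ) * 2 ^ J - 0).toNat = 6 * 2 ^ J := by
      rw [sub_zero]
      have : ((6 : ℤ) * 2 ^ J) = ((6 * 2 ^ J : ℕ) : ℤ) := by push_cast; ring
      rw [this, Int.toNat_natCast]
    rw [card_product, card_product, card_product, Int.card_Ico, e2, Int.card_Icc, Int.card_Icc]
    have e3 : ((-1 : ℤ) + 1 - -3).toNat = 3 := rfl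
    have e4 : (b + 5 + 1 - (b - 5)).toNat = 11 := by
      rw [show b + 5 + 1 - (b - 5) = 11 by ring]; rfl
    rw [e3, e4]
  have h2 : ((Qd c b J).card : ℝ) ≤ ((6 * 2 ^ J) * (6 * 2 ^ J) * (3 * 11) : ℕ) := by
    exact_mod_cast h1
  refine h2.trans (le_of_eq ?_)
  push_cast
  rw [show (4 : ℝ) ^ J = 2 ^ J * 2 ^ J by rw [← mul_pow]; norm_num]
  ring

/-- the ancestors of a cell in the window -/
theorem ix_window {k K Λ : ℕ} (hk : k ≤ K) (hK : K ≤ Λ) {m : ℤ}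
    (h : m ∈ Ico (0 : ℤ) (6 * 2 ^ (Λ - k))) : ix (K - k) m ∈ Ico (0 : ℤ) (6 * 2 ^ (Λ - K)) := by
  rw [mem_Ico] at h ⊢
  unfold ix
  have h2 : (0 : ℤ) < 2 ^ (K - k) := by positivity
  constructor
  · exact Int.ediv_nonneg h.1 h2.le
  · rw [Int.ediv_lt_iff_lt_mul h2]
    refine h.2.trans_le (le_of_eq ?_)
    rw [mul_assoc, ← pow_add]
    congr 2
    omega

/-- the sum of the four ancestors -/
theorem anc_sum {o : ℤ} (ho : |o| ≤ 1) (i : ℕ) {b : ℤ × Pt}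
    (hb : b.2.1 + b.2.2.1 + b.2.2.2 = o - 2 - b.1) :
    ix i b.1 + (cx i b.2).1 + (cx i b.2).2.1 + (cx i b.2).2.2 ∈ Icc (-3) (-1) := by
  have h2 : (0 : ℤ) < 2 ^ i := by positivity
  rw [abs_le] at ho
  show ix i b.1 + ix i b.2.1 + ix i b.2.2.1 + ix i b.2.2.2 ∈ Icc (-3) (-1)
  have key : ∀ x : ℤ, 2 ^ i * ix i x ≤ x ∧ x ≤ 2 ^ i * ix i x + 2 ^ i - 1 := by
    intro x
    have h3 := Int.mul_ediv_add_emod x (2 ^ i)
    have h4 := Int.emod_nonneg x h2.ne'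
    have h5 := Int.emod_lt_of_pos x h2
    unfold ix
    constructor <;> linarith
  have k0 := key b.1
  have k1 := key b.2.1
  have k2 := key b.2.2.1
  have k3 := key b.2.2.2
  set s := ix i b.1 + ix i b.2.1 + ix i b.2.2.1 + ix i b.2.2.2 with hs
  have u1 : 2 ^ i * s ≤ o - 2 := by
    have : 2 ^ i * s = 2 ^ i * ix i b.1 + 2 ^ i * ix i b.2.1 + 2 ^ i * ix i b.2.2.1 +
      2 ^ i * ix i b.2.2.2 := by rw [hs]; ring
    linarith [k0.1, k1.1, k2.1, k3.1]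
  have u2 : o - 2 ≤ 2 ^ i * s + 4 * 2 ^ i - 4 := by
    have : 2 ^ i * s = 2 ^ i * ix i b.1 + 2 ^ i * ix i b.2.1 + 2 ^ i * ix i b.2.2.1 +
      2 ^ i * ix i b.2.2.2 := by rw [hs]; ring
    linarith [k0.2, k1.2, k2.2, k3.2]
  rw [mem_Icc]
  constructor
  · by_contra hn
    push Not at hn
    have h3 : s ≤ -4 := by omega
    have h4 : 2 ^ i * s ≤ 2 ^ i * (-4) := mul_le_mul_of_nonneg_left h3 h2.le
    linarith [ho.1]
  · by_contra hn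
    push Not at hn
    have h3 : 0 ≤ s := by omega
    have h4 : 0 ≤ 2 ^ i * s := mul_nonneg h2.le h3
    linarith [ho.2]

/-- offsets between two cells: the form of the cells is close to the form of the other cells -/
theorem Th_near {c : Pt} (hc : |c.1| + |c.2.1| + |c.2.2| ≤ 6) {K : ℕ} {p q : Pt}
    (h : (Th c K p q).Nonempty) : |el c (cx K p) - el c (cx K q)| ≤ 5 := by
  obtain ⟨θ, hθ⟩ := h
  have h0 := el_of_mem hθ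
  have hw := mem_product.1 (mem_filter.1 hθ).1
  have h1 := hw.1
  have h2 := (mem_product.1 hw.2).1
  have h3 := (mem_product.1 hw.2).2
  unfold win at h1 h2 h3
  rw [mem_Ioo] at h1 h2 h3
  have hp : (0 : ℤ) < 2 ^ K := by positivity
  -- the deviations
  set d1 := θ.1 - (2 ^ K * (q.1 / 2 ^ K) - 2 ^ K * (p.1 / 2 ^ K)) with hd1
  set d2 := θ.2.1 - (2 ^ K * (q.2.1 / 2 ^ K) - 2 ^ K * (p.2.1 / 2 ^ K)) with hd2
  set d3 := θ.2.2 - (2 ^ K * (q.2.2 / 2 ^ K) - 2 ^ K * (p.2.2 / 2 ^ K)) with hd3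
  have b1 : |d1| ≤ 2 ^ K - 1 := by rw [abs_le]; constructor <;> omega
  have b2 : |d2| ≤ 2 ^ K - 1 := by rw [abs_le]; constructor <;> omega
  have b3 : |d3| ≤ 2 ^ K - 1 := by rw [abs_le]; constructor <;> omega
  have e1 : 2 ^ K * (el c (cx K p) - el c (cx K q)) = c.1 * d1 + c.2.1 * d2 + c.2.2 * d3 := by
    have : el c θ = c.1 * θ.1 + c.2.1 * θ.2.1 + c.2.2 * θ.2.2 := rfl
    rw [this] at h0
    have e2 : el c (cx K p) - el c (cx K q) = c.1 * (p.1 / 2 ^ K - q.1 / 2 ^ K) +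
        c.2.1 * (p.2.1 / 2 ^ K - q.2.1 / 2 ^ K) + c.2.2 * (p.2.2 / 2 ^ K - q.2.2 / 2 ^ K) := by
      unfold el cx ix
      simp only
      ring
    rw [e2, hd1, hd2, hd3]
    linear_combination -h0
  have e3 : |2 ^ K * (el c (cx K p) - el c (cx K q))| ≤ 6 * (2 ^ K - 1) := by
    rw [e1]
    have hK1 : (0 : ℤ) ≤ 2 ^ K - 1 := by omega
    calc |c.1 * d1 + c.2.1 * d2 + c.2.2 * d3| ≤ |c.1 * d1| + |c.2.1 * d2| + |c.2.2 * d3| :=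
          abs_add_three _ _ _
      _ ≤ |c.1| * (2 ^ K - 1) + |c.2.1| * (2 ^ K - 1) + |c.2.2| * (2 ^ K - 1) := by
          rw [abs_mul, abs_mul, abs_mul]
          gcongr
      _ = (|c.1| + |c.2.1| + |c.2.2|) * (2 ^ K - 1) := by ring
      _ ≤ _ := mul_le_mul_of_nonneg_right hc hK1
  rw [abs_mul, abs_of_pos hp] at e3
  by_contra hn
  push Not at hn
  have h6 : 6 ≤ |el c (cx K p) - el c (cx K q)| := by omega
  have h7 : 2 ^ K * 6 ≤ 2 ^ K * |el c (cx K p) - el c (cx K q)| :=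
    mul_le_mul_of_nonneg_left h6 hp.le
  linarith

/-- the corner of a cell -/
def crn3 (K : ℕ) (M : Pt) : Pt := (2 ^ K * M.1, 2 ^ K * M.2.1, 2 ^ K * M.2.2)

theorem cx_crn3 (K : ℕ) (M : Pt) : cx K (crn3 K M) = M := by
  have h2 : (2 : ℤ) ^ K ≠ 0 := by positivity
  unfold cx crn3 ix
  simp only [Int.mul_ediv_cancel_left _ h2]

/-- the offsets only depend on the cell -/
theorem Th_congr {c : Pt} {K : ℕ} {p p' q : Pt} (h : cx K p = cx K p') :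
    Th c K p q = Th c K p' q := by
  have h1 : p.1 / 2 ^ K = p'.1 / 2 ^ K := congrArg (fun x : Pt => x.1) h
  have h2 : p.2.1 / 2 ^ K = p'.2.1 / 2 ^ K := congrArg (fun x : Pt => x.2.1) h
  have h3 : p.2.2 / 2 ^ K = p'.2.2 / 2 ^ K := congrArg (fun x : Pt => x.2.2) h
  unfold Th win
  rw [h1, h2, h3]

theorem cx_up' {k K : ℕ} (hk : k ≤ K) {p m : Pt} (h : cx k p = m) : cx K p = cx (K - k) m := by
  rw [← h]
  unfold cx
  simp only [ix_ix, Nat.add_sub_cancel' hk]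

/-- **The residual part, summed over the births.** -/
theorem tres {ι : Type*} {o : ℤ} (ho : |o| ≤ 1) {Λ : ℕ} {c : Pt} (hc : c.2.1 ≠ c.2.2)
    (hc6 : |c.1| + |c.2.1| + |c.2.2| ≤ 6) {B : ℕ → Finset (ℤ × Pt)}
    (hB : ∀ k, ∀ b ∈ B k, b.2.1 + b.2.2.1 + b.2.2.2 = o - 2 - b.1)
    (hW : ∀ k, ∀ b ∈ B k, b.1 ∈ Ico (0 : ℤ) (6 * 2 ^ (Λ - k)) ∧
      b.2.1 ∈ Ico (0 : ℤ) (6 * 2 ^ (Λ - k)))
    {t : Finset ι} {r : ι → ℕ} (hr : ∀ j ∈ t, r j ≤ Λ) {q : ι → Pt} {cf Rn : ι → ℝ}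
    {Φ : ι → Pt → ℤ → ℕ → Pt → ℝ} (hΦ : ∀ j θ x0 k m, 0 ≤ Φ j θ x0 k m)
    {pt : ℕ → Pt → Pt} (hpt : ∀ k m, cx k (pt k m) = m)
    (hone : ∀ j ∈ t, ∀ M : ℤ × Pt, ∑ θ ∈ Th c (r j) (crn3 (r j) M.2) (q j),
      ∑ x0 ∈ iv (r j) M.1, ∑ k ∈ Icc 1 (r j), (2 ^ k : ℝ)⁻¹ *
        ∑ m ∈ sbx B o (r j) M.2 x0 k, Φ j θ x0 k m ≤ 32 ^ r j * Rn j) :
    (36 * (4 : ℝ) ^ Λ)⁻¹ * ∑ k ∈ Icc 1 Λ, (2 ^ k : ℝ)⁻¹ * ∑ b ∈ B k,
      ∑ j ∈ t.filter (fun j => k ≤ r j), |cf j| * ∑ θ ∈ Th c (r j) (pt k b.2) (q j),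
        ∑ x0 ∈ iv k b.1, Φ j θ x0 k b.2 ≤ 33 * ∑ j ∈ t, |cf j| * 8 ^ r j * Rn j := by
  -- exchange the sums
  have e1 : ∑ k ∈ Icc 1 Λ, (2 ^ k : ℝ)⁻¹ * ∑ b ∈ B k,
      ∑ j ∈ t.filter (fun j => k ≤ r j), |cf j| * ∑ θ ∈ Th c (r j) (pt k b.2) (q j),
        ∑ x0 ∈ iv k b.1, Φ j θ x0 k b.2 =
      ∑ j ∈ t, |cf j| * ∑ k ∈ Icc 1 (r j), (2 ^ k : ℝ)⁻¹ * ∑ b ∈ B k,
        ∑ θ ∈ Th c (r j) (crn3 (r j) (cx (r j - k) b.2)) (q j),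
        ∑ x0 ∈ iv k b.1, Φ j θ x0 k b.2 := by
    have a1 : ∀ k ∈ Icc 1 Λ, (2 ^ k : ℝ)⁻¹ * ∑ b ∈ B k,
        ∑ j ∈ t.filter (fun j => k ≤ r j), |cf j| * ∑ θ ∈ Th c (r j) (pt k b.2) (q j),
          ∑ x0 ∈ iv k b.1, Φ j θ x0 k b.2 =
        ∑ j ∈ t, if k ≤ r j then |cf j| * ((2 ^ k : ℝ)⁻¹ * ∑ b ∈ B k,
          ∑ θ ∈ Th c (r j) (crn3 (r j) (cx (r j - k) b.2)) (q j),
          ∑ x0 ∈ iv k b.1, Φ j θ x0 k b.2) else 0 := by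
      intro k _
      rw [sum_comm, ← sum_filter, mul_sum]
      refine sum_congr rfl fun j hj => ?_
      have hkj := (mem_filter.1 hj).2
      have e3 : ∀ b : ℤ × Pt, Th c (r j) (pt k b.2) (q j) =
          Th c (r j) (crn3 (r j) (cx (r j - k) b.2)) (q j) := fun b =>
        Th_congr (by rw [cx_crn3, cx_up' hkj (hpt k b.2)])
      have e4 : ∑ b ∈ B k, |cf j| * ∑ θ ∈ Th c (r j) (pt k b.2) (q j),
          ∑ x0 ∈ iv k b.1, Φ j θ x0 k b.2 = |cf j| * ∑ b ∈ B k,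
          ∑ θ ∈ Th c (r j) (crn3 (r j) (cx (r j - k) b.2)) (q j),
          ∑ x0 ∈ iv k b.1, Φ j θ x0 k b.2 := by
        rw [mul_sum]
        exact sum_congr rfl fun b _ => by rw [e3 b]
      rw [e4]
      exact mul_left_comm _ _ _
    rw [sum_congr rfl a1, sum_comm]
    refine sum_congr rfl fun j hj => ?_
    rw [← sum_filter, ← mul_sum]
    congr 1
    refine sum_congr ?_ fun _ _ => rfl
    ext k
    rw [mem_filter, mem_Icc, mem_Icc]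
    have := hr j hj
    omega
  rw [e1, mul_sum, mul_sum]
  refine sum_le_sum fun j hj => ?_
  have hK := hr j hj
  -- one birth
  have hQ : ∀ k ∈ Icc 1 (r j), ∀ b ∈ B k,
      (Th c (r j) (crn3 (r j) (cx (r j - k) b.2)) (q j)).Nonempty →
      (ix (r j - k) b.1, cx (r j - k) b.2) ∈ Qd c (el c (cx (r j) (q j))) (Λ - r j) := by
    intro k hk b hb hne
    have hkK := (mem_Icc.1 hk).2
    have h2 := Th_near hc6 hne
    rw [cx_crn3] at h2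
    exact mem_Qd (M := (ix (r j - k) b.1, cx (r j - k) b.2)) hc
      (ix_window hkK hK (hW k b hb).1) (ix_window hkK hK (hW k b hb).2)
      (anc_sum ho _ (hB k b hb)) h2
  have h1 := group_one (K := r j) hB (Θ := fun M => Th c (r j) (crn3 (r j) M) (q j))
    (Φ := Φ j) (hΦ j) hQ
  have h2 : ∑ M ∈ Qd c (el c (cx (r j) (q j))) (Λ - r j),
      ∑ θ ∈ Th c (r j) (crn3 (r j) M.2) (q j), ∑ x0 ∈ iv (r j) M.1,
        ∑ k ∈ Icc 1 (r j), (2 ^ k : ℝ)⁻¹ * ∑ m ∈ sbx B o (r j) M.2 x0 k, Φ j θ x0 k m ≤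
      (Qd c (el c (cx (r j) (q j))) (Λ - r j)).card * (32 ^ r j * Rn j) := by
    refine (sum_le_sum fun M _ => hone j hj M).trans (le_of_eq ?_)
    rw [sum_const, nsmul_eq_mul]
  have h0 : 0 ≤ 32 ^ r j * Rn j := by
    refine le_trans ?_ (hone j hj (0, (0, 0, 0)))
    refine sum_nonneg fun θ _ => sum_nonneg fun x0 _ => sum_nonneg fun k _ => ?_
    exact mul_nonneg (by positivity) (sum_nonneg fun m _ => hΦ _ _ _ _ _)
  have h3 := h1.trans (h2.trans (mul_le_mul_of_nonneg_right (card_Qd_le c _ (Λ - r j)) h0))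
  have h4 : (4 : ℝ) ^ (Λ - r j) * 4 ^ r j = 4 ^ Λ := by rw [← pow_add, Nat.sub_add_cancel hK]
  have h5 : (32 : ℝ) ^ r j = 4 ^ r j * 8 ^ r j := by rw [← mul_pow]; norm_num
  have hp : (0 : ℝ) < 36 * 4 ^ Λ := by positivity
  rw [inv_mul_le_iff₀ hp]
  calc |cf j| * ∑ k ∈ Icc 1 (r j), (2 ^ k : ℝ)⁻¹ * ∑ b ∈ B k,
        ∑ θ ∈ Th c (r j) (crn3 (r j) (cx (r j - k) b.2)) (q j),
        ∑ x0 ∈ iv k b.1, Φ j θ x0 k b.2 ≤
        |cf j| * (1188 * 4 ^ (Λ - r j) * (32 ^ r j * Rn j)) :=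
        mul_le_mul_of_nonneg_left h3 (abs_nonneg _)
    _ = 36 * 4 ^ Λ * (33 * (|cf j| * 8 ^ r j * Rn j)) := by
        rw [h5, ← h4]; ring

/-! ### The boxes of the fibres -/

/-- the boxes of scale `k` over the window whose node is in `V k` -/
def bxU (σ : Equiv.Perm (Fin 4)) (o : ℤ) (V : ℕ → Finset ℤ) (Λ k : ℕ) : Finset (ℤ × Pt) :=
  (Finset.sigma (Ico (0 : ℤ) (6 * 2 ^ (Λ - k)) ×ˢ Ico (0 : ℤ) (6 * 2 ^ (Λ - k)))
    fun p => Uz σ o (V k) p.1 p.2).image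
      fun s => (s.1.1, (s.1.2, s.2, qz o s.1.1 s.1.2 s.2))

theorem mem_bxU {σ : Equiv.Perm (Fin 4)} {o : ℤ} {V : ℕ → Finset ℤ} {Λ k : ℕ} {b : ℤ × Pt} :
    b ∈ bxU σ o V Λ k ↔ (b.1 ∈ Ico (0 : ℤ) (6 * 2 ^ (Λ - k)) ∧
      b.2.1 ∈ Ico (0 : ℤ) (6 * 2 ^ (Λ - k))) ∧ vz σ o b.1 b.2.1 b.2.2.1 ∈ V k ∧
        b.2.2.2 = qz o b.1 b.2.1 b.2.2.1 := by
  unfold bxU
  rw [mem_image]
  constructor
  · rintro ⟨s, hs, rfl⟩
    rw [mem_sigma, mem_product, mem_Uz] at hs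
    exact ⟨hs.1, hs.2, rfl⟩
  · rintro ⟨h1, h2, h3⟩
    refine ⟨⟨(b.1, b.2.1), b.2.2.1⟩, ?_, ?_⟩
    · rw [mem_sigma, mem_product, mem_Uz]
      exact ⟨h1, h2⟩
    · exact Prod.ext rfl (Prod.ext rfl (Prod.ext rfl h3.symm))

theorem sum_bxU (σ : Equiv.Perm (Fin 4)) (o : ℤ) (V : ℕ → Finset ℤ) (Λ k : ℕ)
    (F : ℤ × Pt → ℝ) : ∑ b ∈ bxU σ o V Λ k, F b =
      ∑ m0 ∈ Ico (0 : ℤ) (6 * 2 ^ (Λ - k)), ∑ m1 ∈ Ico (0 : ℤ) (6 * 2 ^ (Λ - k)),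
        ∑ n ∈ Uz σ o (V k) m0 m1, F (m0, (m1, n, qz o m0 m1 n)) := by
  unfold bxU
  rw [sum_image]
  · rw [sum_sigma, sum_product]
  · intro s _ s' _ h
    obtain ⟨⟨a, b⟩, n⟩ := s
    obtain ⟨⟨a', b'⟩, n'⟩ := s'
    simp only [Prod.mk.injEq] at h
    obtain ⟨h1, h2, h3, _⟩ := h
    subst h1 h2 h3
    rfl

theorem bxU_sum {σ : Equiv.Perm (Fin 4)} {o : ℤ} {V : ℕ → Finset ℤ} {Λ k : ℕ} {b : ℤ × Pt}
    (h : b ∈ bxU σ o V Λ k) : b.2.1 + b.2.2.1 + b.2.2.2 = o - 2 - b.1 := by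
  have := (mem_bxU.1 h).2.2
  rw [this]
  unfold qz
  ring

/-- the form of `P` -/
def cP (σ : Equiv.Perm (Fin 4)) : Pt := (dd σ 0 1, dd σ 0 2, dd σ 0 3)

theorem cP_facts (σ : Equiv.Perm (Fin 4)) : (cP σ).1 ≠ 0 ∧ (cP σ).2.1 ≠ 0 ∧ (cP σ).2.2 ≠ 0 ∧
    (cP σ).2.1 ≠ (cP σ).2.2 ∧ |(cP σ).1| + |(cP σ).2.1| + |(cP σ).2.2| ≤ 6 := by
  refine ⟨dd_ne σ (by decide), dd_ne σ (by decide), dd_ne σ (by decide), ?_, ?_⟩
  · intro h
    have h1 : dd σ 0 2 = dd σ 0 3 := h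
    have h2 : dd σ 2 3 = 0 := by
      unfold dd at h1 ⊢
      linarith
    exact dd_ne σ (by decide) h2
  · have h := abs_four (σ 0)
    rw [← Equiv.sum_comp σ, Fin.sum_univ_four] at h
    show |dd σ 0 1| + |dd σ 0 2| + |dd σ 0 3| ≤ 6
    rw [Int.abs_eq_natAbs, Int.abs_eq_natAbs, Int.abs_eq_natAbs]
    unfold dd
    omega

/-- **The residual part in the letters of `TT_box`.** -/
theorem tres_fib {ι : Type*} {σ : Equiv.Perm (Fin 4)} {o : ℤ} (ho : |o| ≤ 1) {Λ : ℕ}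
    {V : ℕ → Finset ℤ} {t : Finset ι} {r : ι → ℕ} (hr : ∀ j ∈ t, r j ≤ Λ) {q : ι → Pt}
    {cf Rn : ι → ℝ} {Φ : ι → Pt → ℤ → ℕ → Pt → ℝ} (hΦ : ∀ j θ x0 k m, 0 ≤ Φ j θ x0 k m)
    {pt : ℕ → Pt → Pt} (hpt : ∀ k m, cx k (pt k m) = m)
    (hone : ∀ j ∈ t, ∀ M : ℤ × Pt, ∑ θ ∈ Th (cP σ) (r j) (crn3 (r j) M.2) (q j),
      ∑ x0 ∈ iv (r j) M.1, ∑ k ∈ Icc 1 (r j), (2 ^ k : ℝ)⁻¹ *
        ∑ m ∈ sbx (bxU σ o V Λ) o (r j) M.2 x0 k, Φ j θ x0 k m ≤ 32 ^ r j * Rn j) :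
    (|dd σ 3 2| : ℤ) * ((36 * (4 : ℝ) ^ Λ)⁻¹ * ∑ k ∈ Icc 1 Λ, (2 ^ k : ℝ)⁻¹ *
      ∑ m0 ∈ Ico (0 : ℤ) (6 * 2 ^ (Λ - k)), ∑ m1 ∈ Ico (0 : ℤ) (6 * 2 ^ (Λ - k)),
        ∑ n ∈ Uz σ o (V k) m0 m1, ∑ j ∈ t.filter (fun j => k ≤ r j), |cf j| *
          ∑ θ ∈ Th (cP σ) (r j) (pt k (m1, n, qz o m0 m1 n)) (q j),
            ∑ x0 ∈ iv k m0, Φ j θ x0 k (m1, n, qz o m0 m1 n)) ≤
      99 * ∑ j ∈ t, |cf j| * 8 ^ r j * Rn j := by
  obtain ⟨_, _, _, hc, hc6⟩ := cP_facts σ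
  have h := tres ho hc hc6 (B := bxU σ o V Λ) (fun k b hb => bxU_sum hb)
    (fun k b hb => (mem_bxU.1 hb).1) hr (cf := cf) (Rn := Rn) (q := q) hΦ hpt hone
  simp_rw [sum_bxU] at h
  have h3 : (((|dd σ 3 2| : ℤ)) : ℝ) ≤ 3 := by exact_mod_cast (perm_facts σ).2.2.1
  have h0 : 0 ≤ ((|dd σ 3 2| : ℤ) : ℝ) := by exact_mod_cast abs_nonneg _
  have h4 : (0 : ℝ) ≤ 33 * ∑ j ∈ t, |cf j| * 8 ^ r j * Rn j := by
    refine le_trans ?_ h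
    refine mul_nonneg (by positivity) (sum_nonneg fun k _ => mul_nonneg (by positivity) ?_)
    refine sum_nonneg fun m0 _ => sum_nonneg fun m1 _ => sum_nonneg fun n _ =>
      sum_nonneg fun j _ => mul_nonneg (abs_nonneg _) ?_
    exact sum_nonneg fun θ _ => sum_nonneg fun x0 _ => hΦ _ _ _ _ _
  refine (mul_le_mul_of_nonneg_left h h0).trans ?_
  refine (mul_le_mul_of_nonneg_right h3 h4).trans (le_of_eq ?_)
  ring

end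

end Vale.Agent.P141.H38
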