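import Vale.Agent.P141.H677.SlotX
import Vale.Agent.P141.H377.CapQ
import Vale.Agent.P141.H43.SeamPM
import Vale.Agent.P141.H483.QSh

/-!
# P141, line (A): hub `x₁`, the stack energy of one slot on one shifted grid, summed over `x₀`

Letters of `H43.SeamPM` and `H677.SlotX`: slot `RgS R s.2.2 s.1 x0`, move `DQ`, translated family
`shC K M s (C x0)`.

* `mvo`, `ptD` : the exact martingale;
* `stkE` : at one `x₀` the instance `H336.StkR`, the numbers are the left sides;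
* `sum_H`, `sum_O`, `sum_M` : the numbers of every lag, summed over `x₀`, from `NumX`;
* `sumE` : `∑ x₀, EstR ≤ 1040 (J + 1) ^ 3 (ε ^ 2 A + (1 + P + ε ^ (-2)) X)`.
-/

namespace Vale.Agent.P141.H38.LagE

open Finset Matrix
open Vale.Agent.P141.PL (Pt iv hs ix mem_iv ix_ix cb mem_cb cx card_iv)
open Vale.Agent.P141.H677 Vale.Agent.P141.H677.Sk
open Vale.Agent.P141.H43 (nsq nsq_nonneg)
open Vale.Agent.P141.H43.Seam (DQ)
open Vale.Agent.P141.H747 (sft shC RgS)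
open Vale.Agent.P141.H297.Ch (es em Mvo es_nonneg em_nonneg WO XH Nm SCr qO)
open Vale.Agent.P141.H38.Q (AfC bP)
open Vale.Agent.P141.H336 (EstR)
open Vale.Agent.P141.H460 (GPack)

noncomputable section

open scoped Classical

set_option linter.unusedSectionVars false

variable {ι : Type} [Fintype ι] [DecidableEq ι]

/-! ### The letters -/

/-- the slot, letters of hub `x₁` -/
def Rl (R : Slt ι) (s : Pt) (x0 : ℤ) (a : ℕ) (x n : ℤ) : Matrix ι ι ℝ := RgS R s.2.2 s.1 x0 a n x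

/-- the move, letters of hub `x₁` -/
def Dl (R : Slt ι) (s : Pt) (x0 : ℤ) (a : ℕ) (x n : ℤ) : Matrix ι ι ℝ :=
  DQ (RgS R s.2.2 s.1 x0) a n x

/-- the translated family, letters of hub `x₁` -/
def cl (K : ℕ) (M s : Pt) (C : ℕ → ℤ → ℤ → ι → ℝ) (k : ℕ) (x z : ℤ) : ι → ℝ := shC K M s C k z x

variable {R : Slt ι} {K : ℕ}

theorem left (s : Pt) (x0 : ℤ) (a : ℕ) (x n : ℤ) :
    Rl R s x0 a x (2 * n) = Rl R s x0 (a + 1) x n + Dl R s x0 (a + 1) x n := by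
  unfold Rl Dl
  unfold DQ
  rw [H747.RgS_mart, Nat.add_sub_cancel]
  module

theorem right (s : Pt) (x0 : ℤ) (a : ℕ) (x n : ℤ) :
    Rl R s x0 a x (2 * n + 1) = Rl R s x0 (a + 1) x n - Dl R s x0 (a + 1) x n := by
  unfold Rl Dl
  unfold DQ
  rw [H747.RgS_mart, Nat.add_sub_cancel]
  module

/-- **`hM`** -/
theorem mvo (s : Pt) (x0 : ℤ) (a : ℕ) :
    Mvo (Rl R s x0 a) (Rl R s x0 (a + 1)) (Dl R s x0 (a + 1)) :=
  fun x n => ⟨left s x0 a x n, right s x0 a x n⟩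

theorem Rl_av (s : Pt) (x0 : ℤ) (k : ℕ) (z x : ℤ) :
    Rl R s x0 k x (ix k z) = av R s.2.2 x0 k (z + s.2.2) (x + s.1) :=
  (H747.av_RgS R s.2.2 s.1 x0 k z x).symm

theorem symR (hs : ∀ x0 z x, (R x0 0 z x)ᵀ = R x0 0 z x) (s : Pt) (x0 : ℤ) (a : ℕ) (x n : ℤ) :
    (Rl R s x0 a x n)ᵀ = Rl R s x0 a x n := by
  unfold Rl RgS
  rw [transpose_smul, transpose_sum]
  simp only [hs]

theorem symD (hs : ∀ x0 z x, (R x0 0 z x)ᵀ = R x0 0 z x) (s : Pt) (x0 : ℤ) (a : ℕ) (x n : ℤ) :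
    (Dl R s x0 a x n)ᵀ = Dl R s x0 a x n := by
  have h1 := symR hs s x0 (a - 1) x (2 * n)
  have h2 := symR hs s x0 (a - 1) x (2 * n + 1)
  unfold Rl at h1 h2
  unfold Dl DQ
  rw [transpose_smul, transpose_sub, h1, h2]

theorem nsq_neg (a : ι → ℝ) : nsq (-a) = nsq a := by
  unfold H43.nsq
  rw [neg_dotProduct_neg]

/-- the move at a point -/
theorem nsqD (s : Pt) (x0 : ℤ) (k : ℕ) (z x : ℤ) (w : ι → ℝ) :
    nsq (Dl R s x0 (k + 1) x (ix (k + 1) z) *ᵥ w) =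
      nsq ((av R s.2.2 x0 k (z + s.2.2) (x + s.1) -
        av R s.2.2 x0 (k + 1) (z + s.2.2) (x + s.1)) *ᵥ w) := by
  rw [← Rl_av, ← Rl_av]
  have e := H841.ix_half k z
  have h2 : ix k z = 2 * ix (k + 1) z ∨ ix k z = 2 * ix (k + 1) z + 1 := by omega
  rcases h2 with h2 | h2
  · rw [h2, left, add_sub_cancel_left]
  · rw [h2, right]
    have e2 : Rl R s x0 (k + 1) x (ix (k + 1) z) - Dl R s x0 (k + 1) x (ix (k + 1) z)
        - Rl R s x0 (k + 1) x (ix (k + 1) z) = -Dl R s x0 (k + 1) x (ix (k + 1) z) := by abel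
    rw [e2, neg_mulVec, nsq_neg]

theorem sumsq (w : ι → ℝ) : ∑ i, w i ^ 2 = nsq w := by
  unfold H43.nsq dotProduct
  exact sum_congr rfl fun i _ => by ring

theorem es_eq (r : ℝ) (s : Pt) (x0 : ℤ) (a : ℕ) (c : ℤ → ℤ → ι → ℝ) (x z : ℤ) :
    es r (Rl R s x0 a) a c x z = r ^ 2 * nsq (c x z) +
      nsq (av R s.2.2 x0 a (z + s.2.2) (x + s.1) *ᵥ c x z) := by
  unfold H297.Ch.es
  rw [sumsq, sumsq, Rl_av]

theorem em_eq (hs : ∀ x0 z x, (R x0 0 z x)ᵀ = R x0 0 z x) (r : ℝ) (s : Pt) (x0 : ℤ) (a : ℕ)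
    (c : ℤ → ℤ → ι → ℝ) (x z : ℤ) :
    em r (Rl R s x0 (a + 1)) (Dl R s x0 (a + 1)) (a + 1) c x z =
      nsq ((av R s.2.2 x0 a (z + s.2.2) (x + s.1) -
        av R s.2.2 x0 (a + 1) (z + s.2.2) (x + s.1)) *ᵥ c x z) + (r ^ 2)⁻¹ *
      nsq ((av R s.2.2 x0 a (z + s.2.2) (x + s.1) -
        av R s.2.2 x0 (a + 1) (z + s.2.2) (x + s.1)) *ᵥ
        (av R s.2.2 x0 (a + 1) (z + s.2.2) (x + s.1) *ᵥ c x z)) := by
  unfold H297.Ch.em
  rw [sumsq, sumsq, symD hs, nsqD, nsqD, Rl_av]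

/-! ### One `x₀` -/

/-- the energy of the lag `l`, slot of the scale `l`, family of the time `0` -/
def nH (K : ℕ) (R1 R3 : ℤ) (r : ℝ) (R : Slt ι) (M s : Pt) (C : ℕ → ℤ → ℤ → ι → ℝ) (x0 : ℤ)
    (l : ℕ) : ℝ :=
  if l ≤ K then ∑ x ∈ iv K R1, ∑ z ∈ iv K R3, es r (Rl R s x0 l) l (cl K M s C 0) x z else 0

/-- the moves of the lag `l` -/
def nO (K : ℕ) (R1 R3 : ℤ) (r : ℝ) (R : Slt ι) (M s : Pt) (C : ℕ → ℤ → ℤ → ι → ℝ) (x0 : ℤ)
    (l : ℕ) : ℝ :=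
  ∑ k ∈ range (K - l), ∑ x ∈ iv K R1, ∑ z ∈ iv K R3,
    em r (Rl R s x0 (k + l + 1)) (Dl R s x0 (k + l + 1)) (k + l + 1) (cl K M s C k) x z

/-- the affected rows of the lag `l` -/
def nM (K : ℕ) (R1 R3 : ℤ) (r : ℝ) (R : Slt ι) (M s : Pt) (C : ℕ → ℤ → ℤ → ι → ℝ) (x0 : ℤ)
    (l : ℕ) : ℝ :=
  ∑ k ∈ range (K - l), ∑ x ∈ iv K R1, ∑ z ∈ iv K R3,
    es r (Rl R s x0 (k + 1 + l)) (k + 1 + l) (bP k (cl K M s C k) (cl K M s C (k + 1))) x z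

theorem nH_nonneg (R1 R3 : ℤ) (r : ℝ) (M s : Pt) (C : ℕ → ℤ → ℤ → ι → ℝ) (x0 : ℤ) (l : ℕ) :
    0 ≤ nH K R1 R3 r R M s C x0 l := by
  unfold nH
  split_ifs
  · exact sum_nonneg fun _ _ => sum_nonneg fun _ _ => es_nonneg _ _ _ _ _ _
  · exact le_rfl

theorem nO_nonneg (R1 R3 : ℤ) (r : ℝ) (M s : Pt) (C : ℕ → ℤ → ℤ → ι → ℝ) (x0 : ℤ) (l : ℕ) :
    0 ≤ nO K R1 R3 r R M s C x0 l :=
  sum_nonneg fun _ _ => sum_nonneg fun _ _ => sum_nonneg fun _ _ => em_nonneg _ _ _ _ _ _ _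

theorem nM_nonneg (R1 R3 : ℤ) (r : ℝ) (M s : Pt) (C : ℕ → ℤ → ℤ → ι → ℝ) (x0 : ℤ) (l : ℕ) :
    0 ≤ nM K R1 R3 r R M s C x0 l :=
  sum_nonneg fun _ _ => sum_nonneg fun _ _ => sum_nonneg fun _ _ => es_nonneg _ _ _ _ _ _

/-- **The instance at one `x₀`.** -/
theorem stkE (R1 R3 : ℤ) {μ : ℝ} (hμ : 0 < μ) (J : ℕ) {r : ℝ} (hr : r ≠ 0) (M s : Pt)
    (C : ℕ → ℤ → ℤ → ι → ℝ) (x0 : ℤ)
    (hcap : ∀ k a n m, 0 ≤ k → k ≤ a → a < K →
      (1 - (μ / 4 ^ J) • XH r (Rl R s x0) (cl K M s C k) k a n m).PosSemidef) :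
    H336.StkR 0 K R3 R1 μ J (fun k => WO r (Rl R s x0) (cl K M s C k) k)
      (fun k a n m => XH r (Rl R s x0) (cl K M s C k) k a (2 * n) m)
      (fun k a n m => XH r (Rl R s x0) (cl K M s C k) k a (2 * n + 1) m)
      (fun k a n m => Nm r (Dl R s x0) k a n m) (fun k a n m => -Nm r (Dl R s x0) k a n m)
      (qO J r (Rl R s x0) (Dl R s x0) (cl K M s C)) (H38.Q.pQ J r (Rl R s x0) (cl K M s C))
      (fun k a n m => (1 / 2) * SCr k μ J (WO r (Rl R s x0) (cl K M s C (k + 1)) (k + 1) a n m))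
      (nH K R1 R3 r R M s C x0) (fun l => 258 * ((J : ℝ) + 1) ^ 3 * nO K R1 R3 r R M s C x0 l)
      (fun l => ((J : ℝ) + 1) * nM K R1 R3 r R M s C x0 l) := by
  refine H377.Q.stkR_QO (Nat.zero_le K) hμ J hr (fun a _ _ => mvo s x0 a) hcap
    (nH_nonneg R1 R3 r M s C x0) (nO_nonneg R1 R3 r M s C x0) (nM_nonneg R1 R3 r M s C x0)
    ?_ ?_ ?_
  · intro l hl
    rw [zero_add] at hl ⊢
    unfold nH
    rw [if_pos hl]
    exact le_rfl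
  · intro l
    refine le_of_eq ?_
    unfold nO
    rw [range_eq_Ico]
  · intro l
    refine le_of_eq ?_
    unfold nM
    rw [range_eq_Ico]

/-! ### The sums over `x₀` -/

theorem sum_sh (M s : Pt) (R1 R3 : ℤ) (C : ℕ → ℤ → ℤ → ι → ℝ) (k : ℕ)
    (G : ℤ → ℤ → (ι → ℝ) → ℝ) (hG0 : ∀ z x, G z x 0 = 0) (hG : ∀ z x w, 0 ≤ G z x w) :
    ∑ x ∈ iv K R1, ∑ z ∈ iv K R3, G (z + s.2.2) (x + s.1) (cl K M s C k x z) ≤
      ∑ x ∈ iv K M.1, ∑ z ∈ iv K M.2.2, G z x (C k z x) :=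
  H483.sum_shC M s R1 R3 C k G hG0 hG

variable {M h : Pt} {C : FamV ι} {X : ℝ}

/-- one root of `x₀` -/
theorem one_rt {f : ℤ → ℝ} (hf : ∀ x0, 0 ≤ f x0) (hX : ∑ t ∈ rt M, ∑ x0 ∈ iv K t, f x0 ≤ X)
    {t : ℤ} (ht : t ∈ rt M) : ∑ x0 ∈ iv K t, f x0 ≤ X :=
  (single_le_sum (f := fun t => ∑ x0 ∈ iv K t, f x0)
    (fun _ _ => sum_nonneg fun x0 _ => hf x0) ht).trans hX

/-- **`hH`**, every lag -/
theorem sum_H (N : NumX K M R C h X) (R1 R3 : ℤ) (r : ℝ) {t : ℤ} (ht : t ∈ rt M) {A : ℝ}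
    (hA : ∑ x0 ∈ iv K t, ∑ x ∈ iv K M.1, ∑ z ∈ iv K M.2.2, nsq (C x0 0 z x) ≤ A) (l : ℕ) :
    ∑ x0 ∈ iv K t, nH K R1 R3 r R M h (C x0) x0 l ≤ r ^ 2 * A + X := by
  obtain ⟨E, hE0, hE1, hE2⟩ := N.en
  have hE := one_rt hE0 hE1 ht
  have hX0 : 0 ≤ X := (sum_nonneg fun x0 _ => hE0 x0).trans hE
  have hA0 : 0 ≤ A := (sum_nonneg fun _ _ => sum_nonneg fun _ _ => sum_nonneg fun _ _ =>
    nsq_nonneg _).trans hA
  by_cases hl : l ≤ K
  · have h1 : ∀ x0 ∈ iv K t, nH K R1 R3 r R M h (C x0) x0 l ≤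
        r ^ 2 * (∑ x ∈ iv K M.1, ∑ z ∈ iv K M.2.2, nsq (C x0 0 z x)) + E x0 := by
      intro x0 hx0
      unfold nH
      rw [if_pos hl]
      simp only [es_eq]
      refine (sum_sh (K := K) M h R1 R3 (C x0) 0 (fun z x w => r ^ 2 * nsq w +
        nsq (av R h.2.2 x0 l z x *ᵥ w))
        (fun z x => by simp only [mulVec_zero, H841.nsq_zero, mul_zero, add_zero])
        (fun z x w => add_nonneg (mul_nonneg (sq_nonneg _) (nsq_nonneg _)) (nsq_nonneg _))).trans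
        ?_
      simp only [sum_add_distrib, ← mul_sum]
      have h2 := hE2 t ht x0 hx0 l hl 0 (Nat.zero_le K) (Nat.zero_le _)
      linarith
    refine (sum_le_sum h1).trans ?_
    rw [sum_add_distrib, ← mul_sum]
    exact add_le_add (mul_le_mul_of_nonneg_left hA (sq_nonneg r)) hE
  · unfold nH
    simp only [if_neg hl, sum_const_zero]
    have := mul_nonneg (sq_nonneg r) hA0
    linarith

/-- **`hQo`**, every lag -/
theorem sum_O (hs : ∀ x0 z x, (R x0 0 z x)ᵀ = R x0 0 z x) (N : NumX K M R C h X) (R1 R3 : ℤ)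
    (r : ℝ) {t : ℤ} (ht : t ∈ rt M) (l : ℕ) :
    ∑ x0 ∈ iv K t, nO K R1 R3 r R M h (C x0) x0 l ≤ X + (r ^ 2)⁻¹ * X := by
  have hr : 0 ≤ (r ^ 2)⁻¹ := inv_nonneg.2 (sq_nonneg r)
  have n3 : ∀ (f : ℕ → ℤ → ℤ → ℝ), (∀ k x z, 0 ≤ f k x z) →
      0 ≤ ∑ k ∈ range (K - l), ∑ x ∈ iv K M.1, ∑ z ∈ iv K M.2.2, f k x z := fun f hf =>
    sum_nonneg fun k _ => sum_nonneg fun x _ => sum_nonneg fun z _ => hf k x z
  have a1 := one_rt (K := K) (M := M) (fun x0 => n3 _ fun k x z => nsq_nonneg _) (N.qL l) ht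
  have a2 := one_rt (K := K) (M := M) (fun x0 => n3 _ fun k x z => nsq_nonneg _) (N.q2L l) ht
  have h1 : ∀ x0 ∈ iv K t, nO K R1 R3 r R M h (C x0) x0 l ≤
      (∑ k ∈ range (K - l), ∑ x ∈ iv K M.1, ∑ z ∈ iv K M.2.2,
        nsq ((av R h.2.2 x0 (k + l) z x - av R h.2.2 x0 (k + l + 1) z x) *ᵥ C x0 k z x)) +
      (r ^ 2)⁻¹ * ∑ k ∈ range (K - l), ∑ x ∈ iv K M.1, ∑ z ∈ iv K M.2.2,
        nsq ((av R h.2.2 x0 (k + l) z x - av R h.2.2 x0 (k + l + 1) z x) *ᵥ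
          (av R h.2.2 x0 (k + l + 1) z x *ᵥ C x0 k z x)) := by
    intro x0 _
    unfold nO
    rw [mul_sum, ← sum_add_distrib]
    refine sum_le_sum fun k _ => ?_
    simp only [em_eq hs]
    refine (sum_sh (K := K) M h R1 R3 (C x0) k (fun z x w =>
      nsq ((av R h.2.2 x0 (k + l) z x - av R h.2.2 x0 (k + l + 1) z x) *ᵥ w) + (r ^ 2)⁻¹ *
      nsq ((av R h.2.2 x0 (k + l) z x - av R h.2.2 x0 (k + l + 1) z x) *ᵥ
        (av R h.2.2 x0 (k + l + 1) z x *ᵥ w)))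
      (fun z x => by simp only [mulVec_zero, H841.nsq_zero, mul_zero, add_zero])
      (fun z x w => add_nonneg (nsq_nonneg _) (mul_nonneg hr (nsq_nonneg _)))).trans ?_
    simp only [sum_add_distrib, ← mul_sum]
    exact le_rfl
  refine (sum_le_sum h1).trans ?_
  rw [sum_add_distrib, ← mul_sum]
  exact add_le_add a1 (mul_le_mul_of_nonneg_left a2 hr)

/-- **`hQm`**, every lag. `S` contains the affected rows which are not zero at the time `k + 1`. -/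
theorem sum_M (N : NumX K M R C h X) (R1 R3 : ℤ) (r : ℝ) {t : ℤ} (ht : t ∈ rt M)
    {S Q : ℕ → Pt → Prop} {P : ℝ} (hP : 0 ≤ P) (hQ : GPack Q K P)
    (hSQ : ∀ k < K, ∀ y : Pt, S k y → Q k (cx k y))
    (hS : ∀ x0 ∈ iv K t, ∀ k < K, ∀ x z, AfC k (cl K M h (C x0) k) (cl K M h (C x0) (k + 1))
      (ix k x) z → cl K M h (C x0) (k + 1) x z ≠ 0 → S k (x0, x + h.1, z + h.2.2)) {A : ℝ}
    (hA : ∑ x0 ∈ iv K t, ∑ k ∈ range K, ∑ x ∈ iv K M.1, ∑ z ∈ iv K M.2.2,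
      (if S k (x0, x, z) then nsq (C x0 (k + 1) z x) else 0) ≤ A) (l : ℕ) :
    ∑ x0 ∈ iv K t, nM K R1 R3 r R M h (C x0) x0 l ≤ r ^ 2 * A + (1 + P) * X := by
  have n1 : ∀ (p : Prop) (a : ℝ), 0 ≤ a → 0 ≤ (if p then a else 0) := by
    intro p a ha
    split_ifs
    · exact ha
    · exact le_rfl
  have a1 := one_rt (K := K) (M := M) (fun x0 => sum_nonneg fun k (_ : k ∈ range (K - l)) =>
    sum_nonneg fun x (_ : x ∈ iv K M.1) => sum_nonneg fun z (_ : z ∈ iv K M.2.2) =>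
      n1 (S k (x0, x, z)) (nsq (av R h.2.2 x0 (k + 1 + l) z x *ᵥ C x0 (k + 1) z x))
        (nsq_nonneg _)) (N.afL l S Q P hP hQ hSQ) ht
  have h1 : ∀ x0 ∈ iv K t, nM K R1 R3 r R M h (C x0) x0 l ≤
      r ^ 2 * (∑ k ∈ range K, ∑ x ∈ iv K M.1, ∑ z ∈ iv K M.2.2,
        (if S k (x0, x, z) then nsq (C x0 (k + 1) z x) else 0)) +
      ∑ k ∈ range (K - l), ∑ x ∈ iv K M.1, ∑ z ∈ iv K M.2.2,
        (if S k (x0, x, z) then
          nsq (av R h.2.2 x0 (k + 1 + l) z x *ᵥ C x0 (k + 1) z x) else 0) := by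
    intro x0 hx0
    have h2 : nM K R1 R3 r R M h (C x0) x0 l ≤ ∑ k ∈ range (K - l), ∑ x ∈ iv K M.1,
        ∑ z ∈ iv K M.2.2, (if S k (x0, x, z) then r ^ 2 * nsq (C x0 (k + 1) z x) +
          nsq (av R h.2.2 x0 (k + 1 + l) z x *ᵥ C x0 (k + 1) z x) else 0) := by
      unfold nM
      refine sum_le_sum fun k hk => ?_
      rw [mem_range] at hk
      refine le_trans ?_ (sum_sh (K := K) M h R1 R3 (C x0) (k + 1) (fun z x w =>
        if S k (x0, x, z) then r ^ 2 * nsq w + nsq (av R h.2.2 x0 (k + 1 + l) z x *ᵥ w) else 0)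
        (fun z x => by simp only [mulVec_zero, H841.nsq_zero, mul_zero, add_zero, ite_self])
        (fun z x w => n1 _ _
          (add_nonneg (mul_nonneg (sq_nonneg _) (nsq_nonneg _)) (nsq_nonneg _))))
      refine sum_le_sum fun x _ => sum_le_sum fun z _ => ?_
      rw [es_eq]
      unfold H38.Q.bP
      by_cases hf : AfC k (cl K M h (C x0) k) (cl K M h (C x0) (k + 1)) (ix k x) z
      · by_cases h0 : cl K M h (C x0) (k + 1) x z = 0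
        · rw [if_pos hf, h0]
          simp only [mulVec_zero, H841.nsq_zero, mul_zero, add_zero, ite_self, le_refl]
        · rw [if_pos hf, if_pos (hS x0 hx0 k (by omega) x z hf h0)]
      · rw [if_neg hf]
        simp only [mulVec_zero, H841.nsq_zero, mul_zero, add_zero]
        exact n1 _ _ (add_nonneg (mul_nonneg (sq_nonneg _) (nsq_nonneg _)) (nsq_nonneg _))
    refine h2.trans ?_
    have e1 : ∀ k x z, (if S k (x0, x, z) then r ^ 2 * nsq (C x0 (k + 1) z x) +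
          nsq (av R h.2.2 x0 (k + 1 + l) z x *ᵥ C x0 (k + 1) z x) else 0) =
        r ^ 2 * (if S k (x0, x, z) then nsq (C x0 (k + 1) z x) else 0) +
        (if S k (x0, x, z) then
          nsq (av R h.2.2 x0 (k + 1 + l) z x *ᵥ C x0 (k + 1) z x) else 0) := by
      intro k x z
      split_ifs
      · rfl
      · rw [mul_zero, add_zero]
    simp only [e1, sum_add_distrib, ← mul_sum]
    refine add_le_add (mul_le_mul_of_nonneg_left ?_ (sq_nonneg r)) le_rfl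
    refine sum_le_sum_of_subset_of_nonneg (fun k hk => ?_) fun k _ _ => sum_nonneg fun x _ =>
      sum_nonneg fun z _ => n1 _ _ (nsq_nonneg _)
    rw [mem_range] at hk ⊢
    omega
  refine (sum_le_sum h1).trans ?_
  rw [sum_add_distrib, ← mul_sum]
  exact add_le_add (mul_le_mul_of_nonneg_left hA (sq_nonneg r)) a1

/-- numbers bounded uniformly in the lag -/
theorem EstR_le {N J : ℕ} {H Qo Qm : ℕ → ℝ} {H0 O0 M0 : ℝ} (h1 : ∀ r, H r ≤ H0)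
    (h2 : ∀ r, Qo r ≤ O0) (h3 : ∀ r, Qm r ≤ M0) (n1 : 0 ≤ H0) (n2 : 0 ≤ O0) (n3 : 0 ≤ M0) :
    EstR N J H Qo Qm ≤ 4 * (((J : ℝ) + 1) * H0 + O0 + M0) :=
  (H336.EstR_mono h1 h2 h3).trans (H336.EstR_const n1 n2 n3)

/-- **The stack energy of one slot on one shifted grid, summed over `x₀`.** -/
theorem sumE (hs : ∀ x0 z x, (R x0 0 z x)ᵀ = R x0 0 z x) (N : NumX K M R C h X) (R1 R3 : ℤ)
    (J : ℕ) {r : ℝ} {t : ℤ} (ht : t ∈ rt M) {S Q : ℕ → Pt → Prop} {P : ℝ} (hP : 0 ≤ P)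
    (hQ : GPack Q K P) (hSQ : ∀ k < K, ∀ y : Pt, S k y → Q k (cx k y))
    (hS : ∀ x0 ∈ iv K t, ∀ k < K, ∀ x z, AfC k (cl K M h (C x0) k) (cl K M h (C x0) (k + 1))
      (ix k x) z → cl K M h (C x0) (k + 1) x z ≠ 0 → S k (x0, x + h.1, z + h.2.2)) {A : ℝ}
    (hA0 : ∑ x0 ∈ iv K t, ∑ x ∈ iv K M.1, ∑ z ∈ iv K M.2.2, nsq (C x0 0 z x) ≤ A)
    (hA1 : ∑ x0 ∈ iv K t, ∑ k ∈ range K, ∑ x ∈ iv K M.1, ∑ z ∈ iv K M.2.2,
      (if S k (x0, x, z) then nsq (C x0 (k + 1) z x) else 0) ≤ A) :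
    ∑ x0 ∈ iv K t, EstR K J (nH K R1 R3 r R M h (C x0) x0)
        (fun l => 258 * ((J : ℝ) + 1) ^ 3 * nO K R1 R3 r R M h (C x0) x0 l)
        (fun l => ((J : ℝ) + 1) * nM K R1 R3 r R M h (C x0) x0 l) ≤
      1040 * ((J : ℝ) + 1) ^ 3 * (r ^ 2 * A + (1 + P + (r ^ 2)⁻¹) * X) := by
  obtain ⟨E, hE0, hE1, -⟩ := N.en
  have hX0 : 0 ≤ X := (sum_nonneg fun x0 _ => hE0 x0).trans (one_rt hE0 hE1 ht)
  have hA : 0 ≤ A := (sum_nonneg fun _ _ => sum_nonneg fun _ _ => sum_nonneg fun _ _ =>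
    nsq_nonneg _).trans hA0
  have hr : 0 ≤ (r ^ 2)⁻¹ := inv_nonneg.2 (sq_nonneg r)
  have hJ : (0 : ℝ) ≤ J := Nat.cast_nonneg J
  rw [H336.EstR_sum]
  have b1 := sum_H N R1 R3 r ht hA0
  have b2 : ∀ l, ∑ x0 ∈ iv K t, 258 * ((J : ℝ) + 1) ^ 3 * nO K R1 R3 r R M h (C x0) x0 l ≤
      258 * ((J : ℝ) + 1) ^ 3 * (X + (r ^ 2)⁻¹ * X) := by
    intro l
    rw [← mul_sum]
    exact mul_le_mul_of_nonneg_left (sum_O hs N R1 R3 r ht l) (by positivity)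
  have b3 : ∀ l, ∑ x0 ∈ iv K t, ((J : ℝ) + 1) * nM K R1 R3 r R M h (C x0) x0 l ≤
      ((J : ℝ) + 1) * (r ^ 2 * A + (1 + P) * X) := by
    intro l
    rw [← mul_sum]
    exact mul_le_mul_of_nonneg_left (sum_M N R1 R3 r ht hP hQ hSQ hS hA1 l) (by positivity)
  have p1 : 0 ≤ r ^ 2 * A := mul_nonneg (sq_nonneg r) hA
  have p2 : 0 ≤ (r ^ 2)⁻¹ * X := mul_nonneg hr hX0
  have p3 : 0 ≤ P * X := mul_nonneg hP hX0
  refine (EstR_le b1 b2 b3 (by linarith) (by positivity) (by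
    refine mul_nonneg (by positivity) ?_
    nlinarith)).trans ?_
  have q1 : (1 : ℝ) ≤ (J : ℝ) + 1 := by linarith
  have q2 : (J : ℝ) + 1 ≤ ((J : ℝ) + 1) ^ 3 := by nlinarith [mul_nonneg hJ hJ]
  set y := ((J : ℝ) + 1) ^ 3 with hy
  have s1 := mul_le_mul_of_nonneg_right q2 (show 0 ≤ r ^ 2 * A + X by linarith)
  have s2 := mul_le_mul_of_nonneg_right q2 (show 0 ≤ r ^ 2 * A + (1 + P) * X by nlinarith)
  have y0 : 0 ≤ y := by positivity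
  have t1 := mul_nonneg y0 p1
  have t2 := mul_nonneg y0 p2
  have t3 := mul_nonneg y0 p3
  have t4 := mul_nonneg y0 hX0
  nlinarith

end

end Vale.Agent.P141.H38.LagE
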