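import Vale.Agent.P141.H38.LagE
import Vale.Agent.P141.H829.PairFD
import Vale.Agent.P141.H258.NbPack
import Vale.Agent.P141.H585.PairRXS
import Vale.Agent.P141.H277.PhiS

/-!
# P141, line (A): hub `x₁`, the three energy numbers of the pair `(b, C~)` at class data

`hE1`, `hE2`, `hE3` of `H585.PairRX.RX_BC` for the families of `H677.Sk.FDs`, the slot of
`NumX`, the third family divided by `√ez`, the weight `ε = m ^ (1 / 4)`:
the bound is `(2 + 5 PP) (N0 + MM) √m`, `PP = 28561 (cP + 2)`.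
-/

namespace Vale.Agent.P141.H38.LagF

open Finset Matrix
open Vale.Agent.P141.PL (Pt iv hs ix mem_iv ix_ix cb mem_cb cx card_iv)
open Vale.Agent.P141.PL.H315 (Tri)
open Vale.Agent.P141.H48 (BSl sst)
open Vale.Agent.P141.H677 Vale.Agent.P141.H677.Sk
open Vale.Agent.P141.H43 (nsq nsq_nonneg)
open Vale.Agent.P141.H747 (sft shC RgS)
open Vale.Agent.P141.H297.Ch (es em)
open Vale.Agent.P141.H38.Q (AfC bP)
open Vale.Agent.P141.H38.LagE
open Vale.Agent.P141.H460 (GPack QPack pack2)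
open Vale.Agent.P141.H258 (nbQ near2)
open Vale.Agent.P141.H576 (QD Dd_sst QD_pack agree_kD kD_sst)
open Vale.Agent.P141.H305 (Cls)
open Vale.Agent.P141.H277.Phi (Cz MM lgS lgS_one MM_nonneg)
open Vale.Agent.P141.H585.PairRX (RR DR cR H0 Q0 M0)

noncomputable section

open scoped Classical

set_option linter.unusedSectionVars false

variable {ι : Type} [Fintype ι] [DecidableEq ι]

/-! ### The family times a constant -/

theorem numX_smul {K : ℕ} {M : Pt} {R : Slt ι} {C : FamV ι} {h : Pt} {X : ℝ}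
    (H : NumX K M R C h X) (τ : ℝ) :
    NumX K M R (fun x0 k z x => τ • C x0 k z x) h (τ ^ 2 * X) := by
  obtain ⟨E, h0, h1, h2⟩ := H.en
  have hτ : 0 ≤ τ ^ 2 := sq_nonneg τ
  refine ⟨⟨fun x0 => τ ^ 2 * E x0, fun x0 => mul_nonneg hτ (h0 x0), ?_, ?_⟩, ?_, ?_, ?_, ?_, ?_, ?_⟩
  · simp only [← mul_sum]
    exact mul_le_mul_of_nonneg_left h1 hτ
  · intro t ht x0 hx0 k hk j hj hjk
    simp only [mulVec_smul, H841.nsq_smul, ← mul_sum]
    exact mul_le_mul_of_nonneg_left (h2 t ht x0 hx0 k hk j hj hjk) hτ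
  · simp only [mulVec_smul, H841.nsq_smul, ← mul_sum]
    exact mul_le_mul_of_nonneg_left H.q hτ
  · simp only [mulVec_smul, H841.nsq_smul, ← mul_sum]
    exact mul_le_mul_of_nonneg_left H.q2 hτ
  · intro S Q P hP hQ hS
    simp only [mulVec_smul, H841.nsq_smul, ← mul_ite_zero, ← mul_sum]
    refine (mul_le_mul_of_nonneg_left (H.af S Q P hP hQ hS) hτ).trans (le_of_eq (by ring))
  · intro l
    simp only [mulVec_smul, H841.nsq_smul, ← mul_sum]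
    exact mul_le_mul_of_nonneg_left (H.qL l) hτ
  · intro l
    simp only [mulVec_smul, H841.nsq_smul, ← mul_sum]
    exact mul_le_mul_of_nonneg_left (H.q2L l) hτ
  · intro l S Q P hP hQ hS
    simp only [mulVec_smul, H841.nsq_smul, ← mul_ite_zero, ← mul_sum]
    refine (mul_le_mul_of_nonneg_left (H.afL l S Q P hP hQ hS) hτ).trans (le_of_eq (by ring))

/-- the numbers of the third family divided by `√ez` -/
theorem numX_cz {K : ℕ} {M : Pt} {R : Slt ι} {C : FamV ι} {h : Pt} {ez N0 m : ℝ} (hez : 0 < ez)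
    (H : NumX K M R C h (N0 * (ez * m))) : NumX K M R (Cz ez C) h (N0 * m) := by
  refine (numX_smul H (√ez)⁻¹).mono (le_of_eq ?_)
  rw [inv_pow, Real.sq_sqrt hez.le]
  field_simp

/-! ### The affected squares of the third family -/

/-- the affected squares -/
def Qp (q : H401.Num) (U : Tri) (K : ℕ) (Q2 : ℕ → Pt → Prop) (k : ℕ) (m : Pt) : Prop :=
  QD (fun k x y => sst q.Lm U.2.1 K k x y) Q2 k m.1 m.2.1 m.2.2

/-- the cubes near an affected square -/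
def Sp (q : H401.Num) (U : Tri) (K : ℕ) (Q2 : ℕ → Pt → Prop) (k : ℕ) (y : Pt) : Prop :=
  nbQ 6 (Qp q U K Q2) k (cx k y)

/-- the packing number -/
def PP (cP : ℝ) : ℝ := 28561 * (cP + 2)

theorem gpack_Qp {q : H401.Num} {U : Tri} {n K : ℕ} {e : ℝ} {F : ℕ → Pt → ℝ}
    {Q2 : ℕ → Pt → Prop} (hB : BSl n e q.cP F Q2) (hK : K ≤ n) :
    GPack (nbQ 6 (Qp q U K Q2)) K (PP q.cP) := by
  have h1 : QPack n (Qp q U K Q2) (q.cP + 2) := fun x0 K' hK' r s =>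
    QD_pack (Dd_sst q.Lm U.2.1 K) hB x0 hK' r s
  intro k hk m
  have h2 := pack2 (h1.nb 6) (hk.trans hK) m
  refine h2.trans (le_of_eq ?_)
  unfold PP
  push_cast
  norm_num

section bundle

variable {p : H401.Num} {n : ℕ} {ez : ℝ} {F1 F2 F3 : ℕ → Pt → ℝ} {K : ℕ} {x : Pt} {s r P : ℝ}
  {U : Tri} {g : ℤ → ℤ → ℝ} {u v : ℤ → ℤ → ι → ℝ} {A : FamA} {b C : FamV ι}
  {Q1 Q2 Q3 : ℕ → Pt → Prop} {v' : ℤ → ℤ → ι → ℝ}

/-- **`hS`** of `LagE`: an affected row lies near an affected square -/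
theorem near_row (h : FDs p n ez F1 F2 F3 K x s r U g u v A b C Q1 Q2 Q3 v') (hK : K ≤ n)
    (M w : Pt) (τ : ℝ) (x0 : ℤ) {k : ℕ} (hk : k < K) (y z : ℤ)
    (hA : AfC k (cl K M w ((fun x0 k z x => τ • C x0 k z x : FamV ι) x0) k)
      (cl K M w ((fun x0 k z x => τ • C x0 k z x : FamV ι) x0) (k + 1)) (ix k y) z) :
    Sp p U K Q2 k (x0, y + w.1, z + w.2.2) := by
  unfold H38.Q.AfC at hA
  push Not at hA
  obtain ⟨y', hy', hne⟩ := hA
  have hQ : QD (fun k x y => sst p.Lm U.2.1 K k x y) Q2 k (ix k x0) (ix k (y' + w.1))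
      (ix k (z + w.2.2)) := by
    by_contra hQ
    refine hne ?_
    have e1 := agree_kD (Dd_sst p.Lm U.2.1 K) h.B2 (hk.trans_le hK) hQ (x := y' + w.1)
      (y := z + w.2.2) (mem_iv.2 rfl) (mem_iv.2 rfl)
    rw [kD_sst] at e1
    unfold LagE.cl H747.shC H747.sft
    simp only [h.C_eq, e1]
  exact near2 (Q := Qp p U K Q2) (mem_iv.1 hy') rfl hQ

theorem nsq_cz (C : FamV ι) (hez : 0 < ez) (x0 : ℤ) (k : ℕ) (z y : ℤ) :
    nsq (Cz ez C x0 k z y) = ez⁻¹ * (C x0 k z y ⬝ᵥ C x0 k z y) := by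
  unfold H277.Phi.Cz
  rw [H841.nsq_smul, inv_pow, Real.sq_sqrt hez.le]
  rfl

theorem zero_cz (h : FDs p n ez F1 F2 F3 K x s r U g u v A b C Q1 Q2 Q3 v') (x0 z y : ℤ) :
    Cz ez C x0 0 z y = 0 := by
  unfold H277.Phi.Cz
  rw [h.C_eq]
  unfold H677.kF
  rw [if_pos (Or.inl rfl), zero_smul, smul_zero]

/-- **the masses at the affected squares** -/
theorem mass_aff (h : FDs p n ez F1 F2 F3 K x s r U g u v A b C Q1 Q2 Q3 v')
    (hcl : Cls K x s r P U g u v) (hs : 0 ≤ s) (hΛ : 1 ≤ p.Lm) (hez : 0 < ez) (hK : K ≤ n)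
    (t : ℤ) :
    ∑ x0 ∈ iv K t, ∑ k ∈ range K, ∑ y ∈ iv K (ix K x.1), ∑ z ∈ iv K (ix K x.2.2),
      (if Sp p U K Q2 k (x0, y, z) then nsq (Cz ez C x0 (k + 1) z y) else 0) ≤
      4 * p.Lm * s * (PP p.cP * 8 ^ K) := by
  have h1 := H782.static_any (gpack_Qp (q := p) (U := U) h.B2 hK) (t, ix K x.1, ix K x.2.2)
    (S := fun k y => Sp p U K Q2 k y) (fun k _ y _ hy => hy)
    (f := fun k y => nsq (Cz ez C y.1 (k + 1) y.2.2 y.2.1)) (fun k y => nsq_nonneg _)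
    (D := fun _ _ => False) (fun k _ y _ hf => hf.elim) (T := 4 * p.Lm * s) (by positivity)
    (by
      intro k hk y hy _ _
      rw [mem_cb] at hy
      have hy1 : ix K y.2.1 = ix K x.1 := congrArg (fun m : Pt => m.2.1) hy
      have hy2 : ix K y.2.2 = ix K x.2.2 := congrArg (fun m : Pt => m.2.2) hy
      have h2 := H829.massC_FD h hcl hΛ hez.le hK k hk (ix k y.1) (ix k y.2.2) (by
        rw [mem_iv, ix_ix, Nat.add_sub_cancel' hk.le, hy2]) (ix k y.2.1) (by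
        rw [mem_iv, ix_ix, Nat.add_sub_cancel' hk.le, hy1])
      unfold PL.cb
      rw [sum_product]
      simp only [sum_product, nsq_cz C hez, ← mul_sum]
      refine (mul_le_mul_of_nonneg_left h2 (inv_nonneg.2 hez.le)).trans (le_of_eq ?_)
      field_simp)
  refine le_trans (le_of_eq ?_) h1
  unfold PL.cb
  rw [sum_comm]
  refine sum_congr rfl fun k _ => ?_
  rw [sum_product]
  refine sum_congr rfl fun x0 _ => ?_
  rw [sum_product]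

/-! ### The numbers -/

/-- the bound of the three numbers -/
def EE (q : H401.Num) (s r κ : ℝ) (K : ℕ) (N0 m : ℝ) : ℝ :=
  (2 + 5 * PP q.cP) * (N0 + MM q s r κ K) * √m

theorem qr_sq {m : ℝ} (hm : 0 ≤ m) : (m ^ (1 / 4 : ℝ)) ^ 2 = √m := by
  rw [← Real.rpow_natCast, ← Real.rpow_mul hm, Real.sqrt_eq_rpow]
  norm_num

theorem mass_MM {q : H401.Num} {s r κ : ℝ} {K : ℕ} (ht : 0 < q.t) (ht1 : q.t ≤ 1) (hs : 0 < s)
    (hr : 1 ≤ r) (hκ : 1 ≤ κ) (hc : 0 ≤ q.c) (hd : 0 < q.d) :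
    q.Lm * s * 8 ^ K ≤ MM q s r κ K := by
  have h1 := one_le_pow₀ (n := 64) (lgS_one ht ht1 hr hκ)
  have h2 : q.Lm ≤ q.t ^ (-(64 * (q.c + q.d))) := by
    unfold H401.Num.Lm
    refine Real.rpow_le_rpow_of_exponent_ge ht ht1 ?_
    linarith
  have h3 : q.Lm * s * 8 ^ K ≤ q.t ^ (-(64 * (q.c + q.d))) * s * 8 ^ K := by gcongr
  have h4 : 0 ≤ q.t ^ (-(64 * (q.c + q.d))) * s * 8 ^ K := by positivity
  unfold H277.Phi.MM
  nlinarith

/-- **The three numbers of every lag.** -/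
theorem num3 (h : FDs p n ez F1 F2 F3 K x s r U g u v A b C Q1 Q2 Q3 v')
    (hcl : Cls K x s r P U g u v) (hs : 0 < s) (ht : 0 < p.t) (ht1 : p.t ≤ 1) (hr : 1 ≤ r)
    {κ : ℝ} (hκ : 1 ≤ κ) (hc : 0 ≤ p.c) (hd : 0 < p.d) (hcP : 0 ≤ p.cP) (hez : 0 < ez)
    (hK : K ≤ n) {R : Slt ι} (sy : ∀ x0 z y, (R x0 0 z y)ᵀ = R x0 0 z y) {m N0 : ℝ}
    (hm : 0 < m) (hm1 : m ≤ 1) (hN0 : 0 ≤ N0) {w : Pt}
    (hnum : NumX K (cx K x) R C w (N0 * (ez * m))) {t : ℤ} (ht' : t ∈ rt (cx K x))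
    (R1 R3 : ℤ) (l : ℕ) :
    ∑ x0 ∈ iv K t, nH K R1 R3 (m ^ (1 / 4 : ℝ)) R (cx K x) w (Cz ez C x0) x0 l ≤
        EE p s r κ K N0 m ∧
    ∑ x0 ∈ iv K t, nO K R1 R3 (m ^ (1 / 4 : ℝ)) R (cx K x) w (Cz ez C x0) x0 l ≤
        EE p s r κ K N0 m ∧
    ∑ x0 ∈ iv K t, nM K R1 R3 (m ^ (1 / 4 : ℝ)) R (cx K x) w (Cz ez C x0) x0 l ≤
        EE p s r κ K N0 m := by
  have N := numX_cz hez hnum
  have hΛ : 1 ≤ p.Lm := H401.Num.Lm_ge ht ht1 hd.le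
  have hP : 0 ≤ PP p.cP := by unfold PP; positivity
  have hMM := MM_nonneg (q := p) (K := K) ht ht1 hs hr hκ
  have hms := mass_MM (q := p) (K := K) ht ht1 hs hr hκ hc hd
  have q0 : 0 < √m := Real.sqrt_pos.2 hm
  have q1 : √m ≤ 1 := Real.sqrt_le_one.2 hm1
  have q2 : √m * √m = m := Real.mul_self_sqrt hm.le
  have q3 : m ≤ √m := by nlinarith
  have e1 : (√m)⁻¹ * (N0 * m) = N0 * √m := by
    rw [show (√m)⁻¹ * (N0 * m) = N0 * ((√m)⁻¹ * m) by ring]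
    congr 1
    rw [inv_mul_eq_div, div_eq_iff q0.ne', q2]
  have b0 : N0 * m ≤ N0 * √m := mul_le_mul_of_nonneg_left q3 hN0
  have n1 : 0 ≤ N0 * √m := mul_nonneg hN0 q0.le
  have n2 : 0 ≤ MM p s r κ K * √m := mul_nonneg hMM q0.le
  have n3 : 0 ≤ PP p.cP * (N0 * √m) := mul_nonneg hP n1
  have n4 : 0 ≤ PP p.cP * (MM p s r κ K * √m) := mul_nonneg hP n2
  have eE : EE p s r κ K N0 m = 2 * (N0 * √m) + 2 * (MM p s r κ K * √m) +
      5 * (PP p.cP * (N0 * √m)) + 5 * (PP p.cP * (MM p s r κ K * √m)) := by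
    unfold EE
    ring
  refine ⟨?_, ?_, ?_⟩
  · refine (sum_H N R1 R3 _ ht' (A := 0) (le_of_eq ?_) l).trans ?_
    · refine sum_eq_zero fun x0 _ => sum_eq_zero fun y _ => sum_eq_zero fun z _ => ?_
      rw [zero_cz h, H841.nsq_zero]
    · rw [mul_zero, zero_add, eE]
      linarith
  · refine (sum_O sy N R1 R3 _ ht' l).trans ?_
    rw [qr_sq hm.le, e1, eE]
    linarith
  · have hM := mass_aff h hcl hs.le hΛ hez hK t
    refine (sum_M N R1 R3 (m ^ (1 / 4 : ℝ)) ht' hP (gpack_Qp (q := p) (U := U) h.B2 hK)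
      (S := fun k y => Sp p U K Q2 k y) (fun k _ y hy => hy)
      (fun x0 _ k hk y z hA _ => near_row h hK (cx K x) w (√ez)⁻¹ x0 hk y z hA) hM l).trans ?_
    rw [qr_sq hm.le, eE]
    have a1 : √m * (4 * p.Lm * s * (PP p.cP * 8 ^ K)) ≤
        4 * (PP p.cP * (MM p s r κ K * √m)) := by
      have := mul_le_mul_of_nonneg_left hms (mul_nonneg q0.le hP)
      nlinarith
    have a2 : PP p.cP * (N0 * m) ≤ PP p.cP * (N0 * √m) := mul_le_mul_of_nonneg_left b0 hP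
    nlinarith

/-! ### The letters of `RX_BC` -/

theorem H0_eq (K : ℕ) (M w : Pt) (R : Slt ι) (C : FamV ι) (R1 R3 : ℤ) (ε : ℝ) (x0 : ℤ) {l : ℕ}
    (hl : l ≤ K) :
    H0 0 K R1 R3 ε (RR R w x0) (cR K M C w x0) l = nH K R1 R3 ε R M w (C x0) x0 l := by
  unfold nH
  rw [if_pos hl]
  unfold H585.PairRX.H0
  rw [zero_add]
  rfl

theorem Q0_eq (K : ℕ) (M w : Pt) (R : Slt ι) (C : FamV ι) (R1 R3 : ℤ) (ε : ℝ) (x0 : ℤ) (l : ℕ) :
    Q0 0 K R1 R3 ε (RR R w x0) (DR R w x0) (cR K M C w x0) l =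
      nO K R1 R3 ε R M w (C x0) x0 l := by
  unfold nO
  rw [range_eq_Ico]
  rfl

theorem M0_eq (K : ℕ) (M w : Pt) (R : Slt ι) (C : FamV ι) (R1 R3 : ℤ) (ε : ℝ) (x0 : ℤ) (l : ℕ) :
    M0 0 K R1 R3 ε (RR R w x0) (cR K M C w x0) l = nM K R1 R3 ε R M w (C x0) x0 l := by
  unfold nM
  rw [range_eq_Ico]
  rfl

/-- **`hE1`, `hE2`, `hE3` of `H585.PairRX.RX_BC` at class data**, any roots `R1`, `R3`. -/
theorem hE123 (h : FDs p n ez F1 F2 F3 K x s r U g u v A b C Q1 Q2 Q3 v')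
    (hcl : Cls K x s r P U g u v) (hs : 0 < s) (ht : 0 < p.t) (ht1 : p.t ≤ 1) (hr : 1 ≤ r)
    {κ : ℝ} (hκ : 1 ≤ κ) (hc : 0 ≤ p.c) (hd : 0 < p.d) (hcP : 0 ≤ p.cP) (hez : 0 < ez)
    (hK : K ≤ n) {R : Slt ι} (sy : ∀ x0 z y, (R x0 0 z y)ᵀ = R x0 0 z y) {m N0 : ℝ}
    (hm : 0 < m) (hm1 : m ≤ 1) (hN0 : 0 ≤ N0) {w : Pt}
    (hnum : NumX K (cx K x) R C w (N0 * (ez * m))) {t : ℤ} (ht' : t ∈ rt (cx K x))
    (R1 R3 : ℤ) :
    (∀ l, l ≤ K → ∑ x0 ∈ iv K t, H0 0 K R1 R3 (m ^ (1 / 4 : ℝ)) (RR R w x0)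
      (cR K (cx K x) (Cz ez C) w x0) l ≤ EE p s r κ K N0 m) ∧
    (∀ l, l ≤ K → ∑ x0 ∈ iv K t, Q0 0 K R1 R3 (m ^ (1 / 4 : ℝ)) (RR R w x0) (DR R w x0)
      (cR K (cx K x) (Cz ez C) w x0) l ≤ EE p s r κ K N0 m) ∧
    (∀ l, l ≤ K → ∑ x0 ∈ iv K t, M0 0 K R1 R3 (m ^ (1 / 4 : ℝ)) (RR R w x0)
      (cR K (cx K x) (Cz ez C) w x0) l ≤ EE p s r κ K N0 m) := by
  refine ⟨fun l hl => ?_, fun l _ => ?_, fun l _ => ?_⟩
  · rw [sum_congr rfl fun x0 _ => H0_eq K (cx K x) w R (Cz ez C) R1 R3 _ x0 hl]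
    exact (num3 h hcl hs ht ht1 hr hκ hc hd hcP hez hK sy hm hm1 hN0 hnum ht' R1 R3 l).1
  · rw [sum_congr rfl fun x0 _ => Q0_eq K (cx K x) w R (Cz ez C) R1 R3 _ x0 l]
    exact (num3 h hcl hs ht ht1 hr hκ hc hd hcP hez hK sy hm hm1 hN0 hnum ht' R1 R3 l).2.1
  · rw [sum_congr rfl fun x0 _ => M0_eq K (cx K x) w R (Cz ez C) R1 R3 _ x0 l]
    exact (num3 h hcl hs ht ht1 hr hκ hc hd hcP hez hK sy hm hm1 hN0 hnum ht' R1 R3 l).2.2

theorem EE_nonneg {q : H401.Num} {s r κ : ℝ} {K : ℕ} {N0 m : ℝ} (ht : 0 < q.t) (ht1 : q.t ≤ 1)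
    (hs : 0 < s) (hr : 1 ≤ r) (hκ : 1 ≤ κ) (hcP : 0 ≤ q.cP) (hN0 : 0 ≤ N0) :
    0 ≤ EE q s r κ K N0 m := by
  have h1 := MM_nonneg (q := q) (K := K) ht ht1 hs hr hκ
  unfold EE PP
  positivity

end bundle

end

end Vale.Agent.P141.H38.LagF
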