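import Vale.Agent.P141.H293.StkC

/-!
# P141, line (A): the moving stack at hub `x3` for path slots

`H293.stkC` without the hypothesis `Kill`: the slot `b (k + 1)` may be changed in an arbitrary way
into `b k`.  The affected row cells are the cells `m` of scale `k` of the rows `x` on which the two
functions differ; one step costs `(J + 1)` times the mass at time `k + 1` of the affected row cells.
Killed parts of cells (shifted grids) and inputs which are paths are covered.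
-/

namespace Vale.Agent.P141.H38

open Finset Matrix Vale.Agent.P141.PL Vale.Agent.P141.PL.H103 Vale.Agent.P141.H103
open Vale.Agent.P141.H505 Vale.Agent.P141.H258 Vale.Agent.P141.H293
open Vale.Agent.P141.H389 (Wf XW XWs)
open Vale.Agent.P075 (Ix val rad GX phi res phi_psd res_psd trace_mul_nonneg)
open Vale.Agent.P141.H585.PairCh (phs dls mv_zero)

noncomputable section

open scoped Classical

section gx

variable {n : Type*} [Fintype n] [DecidableEq n]

theorem SG_mono {X E : Matrix n n ℝ} (hX : X.PosSemidef) (hE : E.PosSemidef) {μ : ℝ}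
    (hμ : 0 < μ) (J : ℕ) : SG μ J X ≤ SG μ J (X + E) := by
  refine sum_le_sum fun j _ => mul_le_mul_of_nonneg_left ?_ (inv_nonneg.mpr (by positivity))
  have h4 : 0 ≤ μ / 4 ^ j := by positivity
  have h := GX_tangent (smul_psd hX h4) (smul_psd (hX.add hE) h4)
  have h2 := trace_mul_nonneg (phi_psd (smul_psd hX h4)) (smul_psd hE h4)
  have e : (μ / 4 ^ j) • (X + E) - (μ / 4 ^ j) • X = (μ / 4 ^ j) • E := by
    rw [smul_add]; abel
  rw [e] at h
  linarith

end gx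

variable {κ : Type*} [Fintype κ]

/-! ### Affected row cells -/

/-- the row cell is affected: the slots of the times `k + 1` and `k` differ on it -/
def AfR (b : ℕ → ℤ → ℤ → κ → ℝ) (k : ℕ) (x m : ℤ) : Prop := ¬ ∀ y ∈ iv k m, b k x y = b (k + 1) x y

/-- the slot of the time `k + 1` on the row cells which are not affected -/
def bU (b : ℕ → ℤ → ℤ → κ → ℝ) (k : ℕ) (x y : ℤ) : κ → ℝ :=
  if AfR b k x (ix k y) then 0 else b (k + 1) x y

/-- the slot of the time `k + 1` on the affected row cells -/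
def bA (b : ℕ → ℤ → ℤ → κ → ℝ) (k : ℕ) (x y : ℤ) : κ → ℝ :=
  if AfR b k x (ix k y) then b (k + 1) x y else 0

omit [Fintype κ] in
theorem bA_eq (b : ℕ → ℤ → ℤ → κ → ℝ) (k : ℕ) :
    (fun x y => b (k + 1) x y - bU b k x y) = bA b k := by
  funext x y
  unfold bU bA
  split_ifs <;> simp

omit [Fintype κ] in
theorem cell_U (b : ℕ → ℤ → ℤ → κ → ℝ) (k : ℕ) (m x : ℤ) :
    (∀ y ∈ iv k m, bU b k x y = b (k + 1) x y) ∨ ∀ y ∈ iv k m, bU b k x y = 0 := by
  by_cases h : AfR b k x m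
  · right
    intro y hy
    rw [mem_iv] at hy
    unfold bU
    rw [hy, if_pos h]
  · left
    intro y hy
    rw [mem_iv] at hy
    unfold bU
    rw [hy, if_neg h]

omit [Fintype κ] in
theorem cell_U' (b : ℕ → ℤ → ℤ → κ → ℝ) (k : ℕ) (m x : ℤ) :
    (∀ y ∈ iv k m, bU b k x y = b k x y) ∨ ∀ y ∈ iv k m, bU b k x y = 0 := by
  by_cases h : AfR b k x m
  · right
    intro y hy
    rw [mem_iv] at hy
    unfold bU
    rw [hy, if_pos h]
  · left
    intro y hy
    have hy' := hy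
    rw [mem_iv] at hy'
    unfold bU
    rw [hy', if_neg h]
    unfold AfR at h
    push Not at h
    exact (h y hy).symm

/-- **One step of the time on a cell.** -/
theorem SG_step {W : ℤ → ℕ → ℤ → Matrix κ κ ℝ} (pW : ∀ x k m, (W x k m).PosSemidef)
    (b : ℕ → ℤ → ℤ → κ → ℝ) {μ : ℝ} (hμ : 0 < μ) (J a k : ℕ) (n m : ℤ) :
    SG μ J (QW a k (b (k + 1)) (fun x => W x k m) n m) ≤
      SG μ J (QW a k (b k) (fun x => W x k m) n m) +
        ((J : ℝ) + 1) * (QW a k (bA b k) (fun x => W x k m) n m).trace := by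
  have p1 : ∀ c : ℤ → ℤ → κ → ℝ, (QW a k c (fun x => W x k m) n m).PosSemidef :=
    fun c => QW_psd (fun x => pW x _ _) _ _
  have k1 := QW_kill (a := a) (b := b (k + 1)) (b' := bU b k) (m := m) (cell_U b k m)
    (fun x => W x k m) n
  have k2 := QW_kill (a := a) (b := b k) (b' := bU b k) (m := m) (cell_U' b k m)
    (fun x => W x k m) n
  rw [bA_eq] at k1
  have s1 := SG_add_le (p1 (bU b k)) (p1 (bA b k)) hμ J
  have s2 := SG_mono (p1 (bU b k)) (p1 fun x y => b k x y - bU b k x y) hμ J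
  rw [← k2] at s2
  rw [k1]
  linarith

variable [DecidableEq κ]

/-- error of the middle step -/
def pP (J : ℕ) (W M Nm : ℤ → ℕ → ℤ → Matrix κ κ ℝ) (b : ℕ → ℤ → ℤ → κ → ℝ) (k a : ℕ)
    (n m : ℤ) : ℝ :=
  64 * ((J : ℝ) + 1) ^ 3 * (QW a (k + 1) (b (k + 1))
      (fun x => M x (k + 1) m * (W x (k + 1) m)⁻¹ * M x (k + 1) m) n m).trace
    + ((J : ℝ) + 1) * (QW a (k + 1) (b (k + 1)) (fun x => Nm x (k + 1) m) n m).trace
    + (1 / 2) * ((J : ℝ) + 1)
      * ((QW a k (bA b k) (fun x => W x k (2 * m)) n (2 * m)).trace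
        + (QW a k (bA b k) (fun x => W x k (2 * m + 1)) n (2 * m + 1)).trace)

/-- **The middle step for a path.** -/
theorem mid_P {N : ℕ} {W Nn M Nm : ℤ → ℕ → ℤ → Matrix κ κ ℝ} (h : Wf N W Nn M Nm)
    (b : ℕ → ℤ → ℤ → κ → ℝ) {μ : ℝ} (hμ : 0 < μ) (J : ℕ) {k a : ℕ} (hk : k < N) (n m : ℤ)
    (cap : μ / 4 ^ J * (2 * (QW a (k + 1) (b (k + 1)) (fun x => W x (k + 1) m) n m).trace) ≤ 1) :
    SG μ J (XW (b (k + 1)) W (k + 1) a n m)
        + (1 / 4) * SC μ J (rad (Ix k)) (XWs (b (k + 1)) W k a n m)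
      ≤ (1 / 2) * (SG μ J (XW (b k) W k a n (2 * m)) + SG μ J (XW (b k) W k a n (2 * m + 1)))
        + pP J W M Nm b k a n m := by
  have hμJ : 0 < μ / 4 ^ J := by positivity
  have pW : ∀ x k m, (W x k m).PosSemidef := fun x k m => (h.pd x k m).posSemidef
  have q0 : 0 ≤ (QW a k (b (k + 1)) (fun x => W x (k + 1) m) n (2 * m)).trace :=
    (QW_psd (fun x => pW x (k + 1) m) n (2 * m)).trace_nonneg
  have q1 : 0 ≤ (QW a k (b (k + 1)) (fun x => W x (k + 1) m) n (2 * m + 1)).trace :=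
    (QW_psd (fun x => pW x (k + 1) m) n (2 * m + 1)).trace_nonneg
  have t0 := tr_QW_succ a k (b (k + 1)) (fun x => W x (k + 1) m) n m
  have cap2 : μ / 4 ^ J * ((QW a k (b (k + 1)) (fun x => W x (k + 1) m) n (2 * m)).trace
      + (QW a k (b (k + 1)) (fun x => W x (k + 1) m) n (2 * m + 1)).trace) ≤ 1 := by
    rw [t0]; exact cap
  rw [mul_add] at cap2
  have c0 : μ / 4 ^ J * (QW a k (b (k + 1)) (fun x => W x (k + 1) m) n (2 * m)).trace ≤ 1 := by
    have := mul_nonneg hμJ.le q1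
    linarith
  have c1 : μ / 4 ^ J * (QW a k (b (k + 1)) (fun x => W x (k + 1) m) n (2 * m + 1)).trace
      ≤ 1 := by
    have := mul_nonneg hμJ.le q0
    linarith
  have w0 : ∀ x, W x (k + 1) m + (Nn x (k + 1) m + Nm x (k + 1) m) - Nm x (k + 1) m
      + M x (k + 1) m = W x k (2 * m) := by
    intro x; rw [h.left x k m hk]; abel
  have w1 : ∀ x, W x (k + 1) m + (Nn x (k + 1) m + Nm x (k + 1) m) - Nm x (k + 1) m
      - M x (k + 1) m = W x k (2 * m + 1) := by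
    intro x; rw [h.right x k m hk]; abel
  have key := mid_QW a k (b (k + 1)) (T := fun x => W x (k + 1) m)
    (M := fun x => M x (k + 1) m) (Np := fun x => Nn x (k + 1) m + Nm x (k + 1) m)
    (Nm := fun x => Nm x (k + 1) m) (fun x => pW x _ _) (fun x => unit_det (h.pd x _ _))
    (fun x => h.sM x _ _) (fun x => h.pN x _ _) (fun x => h.pNm x _ _)
    (fun x => by rw [w0]; exact pW x _ _) (fun x => by rw [w1]; exact pW x _ _) n m hμ J c0 c1
  simp only [w0, w1] at key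
  -- the change of the time
  have s0 := SG_step pW b hμ J a k n (2 * m)
  have s1 := SG_step pW b hμ J a k n (2 * m + 1)
  rw [tr_QW_succ, tr_QW_succ] at key
  have f1 : SG μ J (XW (b (k + 1)) W (k + 1) a n m)
      = SG μ J (QW a (k + 1) (b (k + 1)) (fun x => W x (k + 1) m) n m) := rfl
  have f2 : SC μ J (rad (Ix k)) (XWs (b (k + 1)) W k a n m)
      = SC (n := Ix k ⊕ Ix k) μ J (rad (Ix k))
        (QW a (k + 1) (b (k + 1)) (fun x => W x (k + 1) m) n m) := rfl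
  have f3 : SG μ J (XW (b k) W k a n (2 * m))
      = SG μ J (QW a k (b k) (fun x => W x k (2 * m)) n (2 * m)) := rfl
  have f4 : SG μ J (XW (b k) W k a n (2 * m + 1))
      = SG μ J (QW a k (b k) (fun x => W x k (2 * m + 1)) n (2 * m + 1)) := rfl
  rw [f1, f2, f3, f4, pP]
  linarith

/-- the error of one scale, over the plane -/
def cPk (J N : ℕ) (R₁ S : ℤ) (W M Nm : ℤ → ℕ → ℤ → Matrix κ κ ℝ) (b : ℕ → ℤ → ℤ → κ → ℝ)
    (k : ℕ) : ℝ :=
  64 * ((J : ℝ) + 1) ^ 3 * ms N R₁ S (b (k + 1))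
      (fun x m => M x (k + 1) m * (W x (k + 1) m)⁻¹ * M x (k + 1) m) (k + 1)
    + ((J : ℝ) + 1) * ms N R₁ S (b (k + 1)) (fun x m => Nm x (k + 1) m) (k + 1)
    + ((J : ℝ) + 1) * ms N R₁ S (bA b k) (fun x m => W x k m) k

theorem pP_sum {N a k : ℕ} (ha : a ≤ N) (hk : k < N) (J : ℕ) (R₁ S : ℤ)
    (W M Nm : ℤ → ℕ → ℤ → Matrix κ κ ℝ) (b : ℕ → ℤ → ℤ → κ → ℝ) :
    (2 : ℝ) ^ a * 2 ^ (k + 1) * ∑ m ∈ iv (N - (k + 1)) S, ∑ n ∈ iv (N - a) R₁,
      pP J W M Nm b k a n m = cPk J N R₁ S W M Nm b k := by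
  have h1 := bsum_tr ha (show k + 1 ≤ N from hk) R₁ S (b (k + 1))
    (fun x m => M x (k + 1) m * (W x (k + 1) m)⁻¹ * M x (k + 1) m)
  have h2 := bsum_tr ha (show k + 1 ≤ N from hk) R₁ S (b (k + 1)) (fun x m => Nm x (k + 1) m)
  have h3 := two_mid ha hk R₁ S (bA b k) (fun x m => W x k m)
  unfold cPk
  rw [← h1, ← h2]
  have h5 : ms N R₁ S (bA b k) (fun x m => W x k m) k
      = (1 / 2) * ((2 : ℝ) ^ a * 2 ^ (k + 1) * ∑ m ∈ iv (N - (k + 1)) S, ∑ n ∈ iv (N - a) R₁,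
      ((QW a k (bA b k) (fun x => W x k (2 * m)) n (2 * m)).trace
        + (QW a k (bA b k) (fun x => W x k (2 * m + 1)) n (2 * m + 1)).trace)) := by
    linarith
  rw [h5]
  unfold pP
  simp only [Finset.sum_add_distrib, ← Finset.mul_sum]
  ring

theorem cPk_nonneg {N : ℕ} {W Nn M Nm : ℤ → ℕ → ℤ → Matrix κ κ ℝ} (h : Wf N W Nn M Nm)
    (b : ℕ → ℤ → ℤ → κ → ℝ) (J : ℕ) (R₁ S : ℤ) (k : ℕ) : 0 ≤ cPk J N R₁ S W M Nm b k := by
  have h1 : 0 ≤ ms N R₁ S (b (k + 1))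
      (fun x m => M x (k + 1) m * (W x (k + 1) m)⁻¹ * M x (k + 1) m) (k + 1) :=
    Finset.sum_nonneg fun x _ => Finset.sum_nonneg fun y _ =>
      H389.quad_nonneg (h.pd x _ _) (h.sM x _ _) _
  have h2 := ms_nonneg N R₁ S (b (k + 1)) (k + 1) fun x m => h.pNm x (k + 1) m
  have h3 := ms_nonneg N R₁ S (bA b k) k fun x m => (h.pd x k m).posSemidef
  unfold cPk
  positivity

/-- **The moving stack at hub `x3` for a path slot is an instance of `H336.Stk`.** -/
theorem stkP {k₀ N : ℕ} (hkN : k₀ ≤ N) (R₁ S : ℤ) {W Nn M Nm : ℤ → ℕ → ℤ → Matrix κ κ ℝ}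
    (h : Wf N W Nn M Nm) (b : ℕ → ℤ → ℤ → κ → ℝ) {μ : ℝ} (hμ : 0 < μ) (J : ℕ)
    (cap : ∀ k a n m, k₀ ≤ k → k + 1 ≤ a → a ≤ N →
      μ / 4 ^ J * (2 * (QW a (k + 1) (b (k + 1)) (fun x => W x (k + 1) m) n m).trace) ≤ 1)
    {H Qm : ℝ} (hH : ∀ k, k₀ ≤ k → k ≤ N → ms N R₁ S (b k) (fun x m => W x k m) k ≤ H)
    (hQ : ∑ k ∈ Ico k₀ N, cPk J N R₁ S W M Nm b k ≤ Qm) :
    H336.Stk k₀ N R₁ S μ J (fun k => XW (b k) W k) (fun k a n m => XW (b k) W k a (2 * n) m)
      (fun k a n m => XW (b k) W k a (2 * n + 1) m) (fun _ _ _ _ => 0) (fun _ _ _ _ => 0)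
      (fun _ _ _ _ => 0) (fun k a n m => pP J W M Nm b k a n m)
      (fun k a n m => (1 / 4) * SC μ J (rad (Ix k)) (XWs (b (k + 1)) W k a n m)) H 0 Qm where
  hkN := hkN
  hμ := hμ
  psd := fun k a n m => H389.XW_psd h (b k) k a n m
  psd0 := fun k a n m => H389.XW_psd h (b k) k a _ m
  psd1 := fun k a n m => H389.XW_psd h (b k) k a _ m
  nγ := fun k a n m => mul_nonneg (by norm_num)
    (SC_nonneg (H389.XW_psd h (b (k + 1)) (k + 1) a n m) hμ J)
  par := fun k a n m h1 h2 h3 => H389.XW_out N k (b k) W a h2 h3 n m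
  ch0 := fun k a n m _ _ _ => (mv_zero _).symm
  ch1 := fun k a n m _ _ _ => (mv_zero _).symm
  out := fun k a n m h1 h2 h3 => by
    rw [H389.XW_out N k (b k) W a h2 h3 n m, add_zero]
    have p0 := H389.XW_psd h (b k) k a (2 * n) m
    have p1 := H389.XW_psd h (b k) k a (2 * n + 1) m
    have hs := sum_le_sum (s := range (J + 1)) fun j _ => (by
      have hj : 0 < μ / 4 ^ j := by positivity
      have r1 := P075.R.GX_row (smul_psd p0 hj.le) (smul_psd p1 hj.le)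
      rw [← smul_add, smul_comm] at r1
      exact mul_le_mul_of_nonneg_left r1 (inv_nonneg.2 hj.le) :
      (μ / 4 ^ j)⁻¹ * (GX ((μ / 4 ^ j) • ((1 / 2 : ℝ) • (XW (b k) W k a (2 * n) m
            + XW (b k) W k a (2 * n + 1) m)))
          + (1 / 2) * (P075.delt ((μ / 4 ^ j) • XW (b k) W k a (2 * n) m)
            ((μ / 4 ^ j) • XW (b k) W k a (2 * n + 1) m)).trace)
        ≤ (μ / 4 ^ j)⁻¹ * ((1 / 2) * (GX ((μ / 4 ^ j) • XW (b k) W k a (2 * n) m)
          + GX ((μ / 4 ^ j) • XW (b k) W k a (2 * n + 1) m))))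
    have hd := H336.SD_nonneg p0 p1 hμ J
    unfold SG SD at *
    have e1 : ∀ u v : ℕ → ℝ, ∑ j ∈ range (J + 1), (μ / 4 ^ j)⁻¹ * (u j + (1 / 2) * v j)
        = ∑ j ∈ range (J + 1), (μ / 4 ^ j)⁻¹ * u j
          + (1 / 2) * ∑ j ∈ range (J + 1), (μ / 4 ^ j)⁻¹ * v j := by
      intro u v
      rw [Finset.mul_sum, ← Finset.sum_add_distrib]
      exact Finset.sum_congr rfl fun j _ => by ring
    have e2 : ∀ u v : ℕ → ℝ, ∑ j ∈ range (J + 1), (μ / 4 ^ j)⁻¹ * ((1 / 2) * (u j + v j))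
        = (1 / 2) * (∑ j ∈ range (J + 1), (μ / 4 ^ j)⁻¹ * u j
          + ∑ j ∈ range (J + 1), (μ / 4 ^ j)⁻¹ * v j) := by
      intro u v
      rw [← Finset.sum_add_distrib, Finset.mul_sum]
      exact Finset.sum_congr rfl fun j _ => by ring
    rw [e1, e2] at hs
    linarith
  lip := fun k a n m _ _ _ => by simp
  mid := fun k a n m h1 h2 h3 => mid_P h b hμ J (by omega) n m (cap k a n m h1 h2 h3)
  hH := fun k a h1 h2 h3 => by
    have := bsum_tr h3 (show k ≤ N by omega) R₁ S (b k) (fun x m => W x k m)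
    unfold XW
    rw [this]
    exact hH k h1 (by omega)
  hQo := fun r => by simp
  hQm := fun r => by
    have e : ∀ k ∈ Ico k₀ (N - r), (2 : ℝ) ^ (k + 1 + r) * 2 ^ (k + 1)
        * ∑ m ∈ iv (N - (k + 1)) S, ∑ n ∈ iv (N - (k + 1 + r)) R₁, pP J W M Nm b k (k + 1 + r) n m
        = cPk J N R₁ S W M Nm b k := by
      intro k hk
      rw [mem_Ico] at hk
      exact pP_sum (by omega) (by omega) J R₁ S W M Nm b
    rw [Finset.sum_congr rfl e]
    refine le_trans (Finset.sum_le_sum_of_subset_of_nonneg ?_ fun k hk _ => ?_) hQ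
    · exact Ico_subset_Ico le_rfl (by omega)
    · rw [mem_Ico] at hk
      exact cPk_nonneg h b J R₁ S k

end

end Vale.Agent.P141.H38
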